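import Vale.Agent.P287Z.Gr.Free
import Vale.Agent.P287Z.Gr.Twist
import Vale.Agent.P287Z.Gr.B1b

/-!
# Graded modules: submodules, finite products, generation in large degrees
-/

open CategoryTheory Limits MvPolynomial

namespace Vale.Agent.P287T.Sv

open Vale.Agent.P294.V Vale.Agent.P287Z.Gr

variable {ν : ℕ}

theorem hg_pow (i : Fin ν) (k : ℕ) {n : ℤ} (h : n = k) : Hg (2 * n) (X i ^ k : Sn ν) := by
  subst h
  induction k with
  | zero => simpa using hga_one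
  | succ k ih =>
    rw [pow_succ]
    exact hga_mul' ih (hga_X i) (by push_cast; ring)

theorem hg_X (i : Fin ν) {a b : ℤ} (h : a + 1 = b) : Hg (2 * (b - a)) (X i : Sn ν) := by
  rw [show 2 * (b - a) = 2 by lia]; exact hga_X i

theorem map_eq_act (M : GrS ν) {a b : ℤ} (m : (⟨a⟩ : Dg ν) ⟶ ⟨b⟩) (x : M.obj ⟨a⟩) :
    M.map m x = act M (monomial m.1 1) a b x := by
  rw [act_monomial, one_smul, mon_apply_of_eq m.1 m.2]
  rfl

theorem hg_mon {a b : ℤ} (m : (⟨a⟩ : Dg ν) ⟶ ⟨b⟩) : Hg (2 * (b - a)) (monomial m.1 1 : Sn ν) :=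
  hga_monomial 1 (by have : a + (m.1.degree : ℤ) = b := m.2; lia)

theorem act_mul_apply' (M : GrS ν) (f : Sn ν) {g : Sn ν} {a b c : ℤ} (hg : Hg (2 * (c - b)) g)
    (x : M.obj ⟨a⟩) : act M g b c (act M f a b x) = act M (f * g) a c x := by
  rw [act_mul' M hg]; rfl

theorem act_comm (M : GrS ν) {f g : Sn ν} {a b b' c : ℤ} (hf : Hg (2 * (b - a)) f)
    (hg : Hg (2 * (b' - a)) g) (x : M.obj ⟨a⟩) :
    act M g b c (act M f a b x) = act M f b' c (act M g a b' x) := by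
  rw [← act_mul_apply g hf, ← act_mul_apply f hg, mul_comm]

/-- families of subspaces stable under the monomials -/
def Stb (M : GrS ν) (Z : ∀ a : ℤ, Submodule ℂ (M.obj ⟨a⟩)) : Prop :=
  ∀ (a b : ℤ) (m : (⟨a⟩ : Dg ν) ⟶ ⟨b⟩), ∀ v ∈ Z a, M.map m v ∈ Z b

theorem Stb.act_mem {M : GrS ν} {Z : ∀ a : ℤ, Submodule ℂ (M.obj ⟨a⟩)} (h : Stb M Z) (f : Sn ν)
    {a : ℤ} (b : ℤ) {v : M.obj ⟨a⟩} (hv : v ∈ Z a) : act M f a b v ∈ Z b := by
  rw [act_apply_eq]
  refine Submodule.sum_mem _ fun m _ => Submodule.smul_mem _ _ ?_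
  by_cases hm : a + (m.degree : ℤ) = b
  · rw [mon_apply_of_eq m hm]; exact h a b _ v hv
  · rw [mon_of_ne M m hm]; exact zero_mem _

/-- the submodule -/
noncomputable def subG (M : GrS ν) (Z : ∀ a : ℤ, Submodule ℂ (M.obj ⟨a⟩)) (h : Stb M Z) :
    GrS ν where
  obj a := ModuleCat.of ℂ (Z a.deg)
  map {a b} m := ModuleCat.ofHom ((M.map m).hom.restrict (p := Z a.deg) (q := Z b.deg)
    fun v hv => h a.deg b.deg m v hv)
  map_id a := by
    ext v
    exact congr($(M.map_id a) v.1)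
  map_comp f g := by
    ext v
    exact congr($(M.map_comp f g) v.1)

/-- the inclusion -/
noncomputable def subι (M : GrS ν) (Z : ∀ a : ℤ, Submodule ℂ (M.obj ⟨a⟩)) (h : Stb M Z) :
    subG M Z h ⟶ M where
  app a := ModuleCat.ofHom (Z a.deg).subtype
  naturality _ _ _ := rfl

theorem subι_app (M : GrS ν) (Z : ∀ a : ℤ, Submodule ℂ (M.obj ⟨a⟩)) (h : Stb M Z) (a : ℤ)
    (v : Z a) : (subι M Z h).app ⟨a⟩ v = v.1 := rfl

theorem subι_mono (M : GrS ν) (Z : ∀ a : ℤ, Submodule ℂ (M.obj ⟨a⟩)) (h : Stb M Z) :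
    Mono (subι M Z h) := mono_of_injective _ fun _ => Subtype.val_injective

/-- products -/
noncomputable def piG {T : Type} (M : T → GrS ν) : GrS ν where
  obj a := ModuleCat.of ℂ (∀ t, (M t).obj a)
  map m := ModuleCat.ofHom (LinearMap.pi fun t => ((M t).map m).hom ∘ₗ LinearMap.proj t)
  map_id a := by
    ext v t
    exact congr($((M t).map_id a) (v t))
  map_comp f g := by
    ext v t
    exact congr($((M t).map_comp f g) (v t))

theorem piG_map {T : Type} (M : T → GrS ν) {a b : Dg ν} (m : a ⟶ b) (v : ∀ t, (M t).obj a)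
    (t : T) : (piG M).map m v t = (M t).map m (v t) := rfl

/-- the projections -/
noncomputable def piP {T : Type} (M : T → GrS ν) (t : T) : piG M ⟶ M t where
  app _ := ModuleCat.ofHom (LinearMap.proj t)
  naturality _ _ _ := rfl

theorem piG_act {T : Type} (M : T → GrS ν) (f : Sn ν) (a b : ℤ) (v : ∀ t, (M t).obj ⟨a⟩)
    (t : T) : act (piG M) f a b v t = act (M t) f a b (v t) :=
  act_natural_apply (piP M t) f a b v

theorem fg_piG {T : Type} [Finite T] {M : T → GrS ν} (h : ∀ t, fg (M t)) : fg (piG M) := by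
  classical
  have := Fintype.ofFinite T
  choose n d g hg using h
  refine fg_of_finite (ι := Σ t, Fin (n t)) (fun p => d p.1 p.2)
    (fun p => (Pi.single p.1 (g p.1 p.2) : ∀ t, (M t).obj ⟨d p.1 p.2⟩)) fun j => ?_
  rw [eq_top_iff]
  intro (v : ∀ t, (M t).obj ⟨j⟩) _
  rw [← Finset.univ_sum_single v]
  refine Submodule.sum_mem _ fun t _ => ?_
  have : gsp (M t) (d t) (g t) j ≤ (gsp (piG M) (fun p : Σ t, Fin (n t) => d p.1 p.2)
      (fun p => (Pi.single p.1 (g p.1 p.2) : ∀ t, (M t).obj ⟨d p.1 p.2⟩)) j).comap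
        (LinearMap.single ℂ (fun t => (M t).obj ⟨j⟩) t) := by
    refine Submodule.span_le.2 ?_
    rintro _ ⟨k, m, rfl⟩
    refine Submodule.subset_span ⟨⟨t, k⟩, m, funext fun s => ?_⟩
    rw [piG_map]
    change (M s).map m ((Pi.single t (g t k) : ∀ s, (M s).obj ⟨d t k⟩) s) =
      (Pi.single t ((M t).map m (g t k)) : ∀ s, (M s).obj ⟨j⟩) s
    by_cases hs : s = t
    · subst hs; rw [Pi.single_eq_same, Pi.single_eq_same]
    · rw [Pi.single_eq_of_ne hs, Pi.single_eq_of_ne hs, map_zero]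
  exact this (hg t j (v t))

theorem exists_big (m : Fin ν →₀ ℕ) {r : ℕ} (h : ν * r < m.degree) : ∃ i, r ≤ m i := by
  by_contra! h'
  have : m.degree ≤ ν * r := by
    rw [Finsupp.degree_eq_sum]
    simpa using Finset.sum_le_card_nsmul Finset.univ (fun i => m i) r fun i _ => (h' i).le
  lia

theorem bdd_above {ι : Type} [Finite ι] (d : ι → ℤ) : ∃ n, ∀ i, d i ≤ n :=
  let ⟨n, h⟩ := (Set.finite_range d).bddAbove
  ⟨n, fun i => h ⟨i, rfl⟩⟩

theorem bdd_below {ι : Type} [Finite ι] (d : ι → ℤ) : ∃ n, ∀ i, n ≤ d i :=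
  let ⟨n, h⟩ := (Set.finite_range d).bddBelow
  ⟨n, fun i => h ⟨i, rfl⟩⟩

theorem gen_top {M : GrS ν} (hM : fg M) (r : ℕ) : ∃ n : ℤ, ∀ a b : ℤ, a + r = b → n ≤ b →
    ∀ z : M.obj ⟨b⟩, ∃ w : Fin ν → M.obj ⟨a⟩, z = ∑ i, act M (X i ^ r) a b (w i) := by
  classical
  obtain ⟨s, d, g, hg⟩ := hM
  obtain ⟨n, hn⟩ := bdd_above d
  refine ⟨n + ν * r + 1, fun a b hab hb z => ?_⟩
  refine Submodule.span_induction (p := fun z _ => ∃ w : Fin ν → M.obj ⟨a⟩,
    z = ∑ i, act M (X i ^ r) a b (w i)) ?_ ⟨0, by simp⟩ ?_ ?_ (hg b z)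
  · rintro _ ⟨k, m, rfl⟩
    have h1 : d k + (m.1.degree : ℤ) = b := m.2
    have h2 := hn k
    obtain ⟨i, hi⟩ := exists_big m.1 (r := r) (by zify; lia)
    have h3 : m.1 - Finsupp.single i r + Finsupp.single i r = m.1 :=
      tsub_add_cancel_of_le (Finsupp.single_le_iff.2 hi)
    refine ⟨Pi.single i (act M (monomial (m.1 - Finsupp.single i r) 1) (d k) a (g k)), ?_⟩
    rw [Finset.sum_eq_single i, Pi.single_eq_same, act_mul_apply' M _ (hg_pow i r (by lia)),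
      X_pow_eq_monomial, monomial_mul, h3, mul_one, map_eq_act]
    · intro j _ hj; rw [Pi.single_eq_of_ne hj, map_zero]
    · simp
  · rintro _ _ _ _ ⟨w, rfl⟩ ⟨w', rfl⟩
    exact ⟨w + w', by simp [Finset.sum_add_distrib]⟩
  · rintro c _ _ ⟨w, rfl⟩
    exact ⟨c • w, by simp [Finset.smul_sum]⟩

/-- in large degrees a submodule is generated from lower degrees by the powers of the variables -/
theorem gen_large {M : GrS ν} (hM : fg M) {Z : ∀ a : ℤ, Submodule ℂ (M.obj ⟨a⟩)} (h : Stb M Z)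
    (r : ℕ) : ∃ n : ℤ, ∀ a b : ℤ, a + r = b → n ≤ b → ∀ z ∈ Z b,
      ∃ w : Fin ν → M.obj ⟨a⟩, (∀ i, w i ∈ Z a) ∧ z = ∑ i, act M (X i ^ r) a b (w i) := by
  have := subι_mono M Z h
  obtain ⟨n, hn⟩ := gen_top (fg_of_mono (subι M Z h) hM) r
  refine ⟨n, fun a b hab hb z hz => ?_⟩
  obtain ⟨w, hw⟩ := hn a b hab hb ⟨z, hz⟩
  refine ⟨fun i => (w i).1, fun i => (w i).2, ?_⟩
  have h1 := congrArg ((subι M Z h).app ⟨b⟩) hw
  rw [map_sum] at h1
  exact h1.trans (Finset.sum_congr rfl fun i _ => act_natural_apply (subι M Z h) _ a b (w i))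

/-- a finitely generated module vanishes in small degrees -/
theorem low_zero {M : GrS ν} (hM : fg M) : ∃ n : ℤ, ∀ a < n, ∀ v : M.obj ⟨a⟩, v = 0 := by
  obtain ⟨s, d, g, hg⟩ := hM
  obtain ⟨n, hn⟩ := bdd_below d
  refine ⟨n, fun a ha v => ?_⟩
  have h := hg a v
  rwa [Set.eq_empty_of_forall_notMem (s := {w | ∃ (i : Fin s) (m : (⟨d i⟩ : Dg ν) ⟶ ⟨a⟩),
    M.map m (g i) = w}), Submodule.span_empty, Submodule.mem_bot] at h
  rintro _ ⟨k, m, -⟩
  have h1 : d k + (m.1.degree : ℤ) = a := m.2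
  have := hn k
  lia

/-- a finitely generated module killed by powers of all variables vanishes in large degrees -/
theorem high_zero {M : GrS ν} (hM : fg M) (r : ℕ)
    (h : ∀ i a b v, act M (X i ^ r) a b v = 0) : ∃ n : ℤ, ∀ b ≥ n, ∀ v : M.obj ⟨b⟩, v = 0 := by
  obtain ⟨n, hn⟩ := gen_top hM r
  refine ⟨n, fun b hb v => ?_⟩
  obtain ⟨w, rfl⟩ := hn (b - r) b (by lia) hb v
  exact Finset.sum_eq_zero fun i _ => h i _ _ _

end Vale.Agent.P287T.Sv
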