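import Vale.Agent.P287T.Sv.Kos
import Vale.Agent.P287Z.O.H335.E1
import Vale.Agent.P287Z.O.H409.Term

/-!
# Serre vanishing
-/

set_option linter.unusedSectionVars false

open CategoryTheory Limits MvPolynomial Abelian

universe w v u

namespace Vale.Agent.P287T.Sv

open Vale.Agent.P294.V Vale.Agent.P287Z.Gr Vale.Agent.P287Z.O.H335 Vale.Agent.P287Z.O

variable {ν : ℕ} {I : Ideal (Sn ν)} [FrOK I]

theorem kd0 (i : Fin ν) : kd 0 ∅ {i} = X i := by
  rw [kd_eq 0 _ (by simp), Finset.sum_singleton, if_pos (by simp)]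
  simp [sg, Finset.filter_singleton]

theorem inc_Kd_prj (a : ℤ) (J : Finset (Fin ν)) (h : Hg (kq a 1 J - kq (ν := ν) a 0 ∅) (kd 0 ∅ J)) :
    inc (I := I) (kq a 1) J ≫ Kd I a 0 ≫ prj (kq a 0) ∅ = pm (kd 0 ∅ J) h := by
  have h1 := matA_comp I _ (kd_hg a 0) _ (prjM_hg (ν := ν) (kq a 0) (∅ : Finset (Fin ν)))
  have h2 := matA_comp I _ (incM_hg (ν := ν) (kq a 1) J) _
    ((kd_hg a 0).mul (prjM_hg (ν := ν) (kq a 0) (∅ : Finset (Fin ν))))
  refine (congrArg (fun t => inc (I := I) (kq a 1) J ≫ t) h1).trans (h2.trans ?_)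
  refine matA_congr _ _ (Matrix.ext fun i j => ?_)
  rw [Matrix.mul_apply, Finset.sum_eq_single J]
  · rw [Matrix.mul_apply, Finset.sum_eq_single ∅]
    · simp [prjM, incM]
    · intro L _ hL
      simp [prjM, hL]
    · intro h
      exact absurd (Finset.mem_univ _) h
  · intro L _ hL
    simp [incM, hL]
  · intro h
    exact absurd (Finset.mem_univ _) h

variable {𝒞 : Type u} [Category.{v} 𝒞] [Abelian 𝒞] (π : GA I ⥤ 𝒞) [π.Additive]
  [π.IsLocalization (tors I).isoModSerre] {m : ℤ} {N : GA I}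

theorem hom_bij (hN : Reg m N.obj) {ι : Type} [Fintype ι] {q : ι → ℤ}
    (hq : ∀ i, Even (q i) → 2 * m ≤ q i) :
    Function.Bijective fun f : FrA I q ⟶ N => π.map f := pi_bij π (low_free I hq) hN

section

variable [HasExt.{w} 𝒞]

/-- a class killed by the variables vanishes -/
theorem kos_kill (hN : Reg m N.obj) (j₀ : ℕ) {a : ℤ} (ha : m ≤ a)
    (IH : ∀ i, 1 ≤ i → i ≤ j₀ → ∀ d, 2 * m ≤ d → ∀ x : Ext (π.obj (O1 I d)) (π.obj N) i, x = 0)
    (β : Ext (π.obj (O1 I (kq (ν := ν) a 0 ∅))) (π.obj N) (j₀ + 1))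
    (hβ : ∀ i d (h : Hg (d - kq (ν := ν) a 0 ∅) (X i : Sn ν)), pre π (pm (X i) h) β = 0) :
    β = 0 := by
  have h0 : pre π (prj (kq a 0) ∅) β = 0 := by
    refine ext_shift (π.obj N) j₀ (fun j => π.obj (Kz I a j)) (fun j => π.map (Kd I a j))
      (fun j => ?_) (fun j => K_exact π a j) (K_epi π a) (fun i j h1 h2 _ x => ?_)
      (fun φ hφ => ?_) _ ?_
    · rw [← Functor.map_comp, Kd_Kd, Functor.map_zero]
    · refine ext_pieces π (kq a j) x fun J => ?_
      by_cases hJ : Even (kq a j J)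
      · exact IH i h1 h2 _ (kq_ge ha j J hJ) _
      · exact ext_odd π hJ _
    · obtain ⟨φ', rfl⟩ := (hom_bij π hN (kq_ge ha (j₀ + 2))).2 φ
      obtain ⟨ψ, hψ⟩ := hom_ex hN ha (j₀ + 1) φ' ((hom_bij π hN (kq_ge ha (j₀ + 3))).1
        (((π.map_comp _ _).trans hφ).trans (π.map_zero _ _).symm))
      exact ⟨π.map ψ, (π.map_comp _ _).symm.trans (congrArg π.map hψ)⟩
    · change pre π (Kd I a 0) (pre π (prj (kq a 0) ∅) β) = 0
      refine (pre_comp π (Kd I a 0) (prj (kq a 0) ∅) β).symm.trans ?_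
      refine ext_pieces π (kq a 1) _ fun J => ?_
      refine (pre_comp π _ _ _).symm.trans ?_
      by_cases hJ : J.card = 1
      · obtain ⟨i, rfl⟩ := Finset.card_eq_one.1 hJ
        have h3 : Hg (kq a 1 {i} - kq a 0 ∅) (kd 0 ∅ {i}) := kd_hg a 0 ∅ {i}
        have h4 : Hg (kq a 1 {i} - kq (ν := ν) a 0 ∅) (X i : Sn ν) := by rw [← kd0 i]; exact h3
        have h5 : pm (I := I) (kd 0 ∅ {i}) h3 = pm (X i) h4 := by
          congr 1
          exact kd0 i
        exact (congrArg (fun t => pre π t β) ((inc_Kd_prj a {i} h3).trans h5)).trans (hβ i _ h4)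
      · exact ext_odd π (by rw [kq, if_neg hJ]; decide) _
  rw [← pre_id π β, ← inc_prj (kq a 0) ∅, pre_comp, h0, pre_zero]

theorem ext_rank1 (hN : Reg m N.obj) (j : ℕ) : 1 ≤ j → ∀ d : ℤ, 2 * m ≤ d →
    ∀ x : Ext (π.obj (O1 I d)) (π.obj N) j, x = 0 := by
  induction j using Nat.strong_induction_on with
  | _ j ih =>
    intro hj d hd x
    obtain ⟨j₀, rfl⟩ := Nat.exists_eq_succ_of_ne_zero (by omega : j ≠ 0)
    obtain ⟨n0, hn0⟩ := eff π x
    have Q : ∀ (k : ℕ) (e : ℤ), d ≤ e → 2 * n0 ≤ e + 2 * k → ∀ (p : Sn ν) (hp : Hg (e - d) p),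
        pre π (pm p hp) x = 0 := by
      intro k
      induction k with
      | zero => exact fun e _ he p hp => hn0 _ (fun _ (h : e = 2 * (e / 2)) => by lia) _
      | succ k ihk =>
        intro e hde he p hp
        by_cases hev : Even e
        swap
        · exact ext_odd π hev _
        obtain ⟨a, rfl⟩ : ∃ a, e = kq (ν := ν) a 0 ∅ := by
          obtain ⟨a, rfl⟩ := hev
          exact ⟨a, by rw [kq, if_pos Finset.card_empty]; simp [two_mul]⟩
        have h0 : kq (ν := ν) a 0 ∅ = 2 * a := by rw [kq, if_pos Finset.card_empty]; simp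
        refine kos_kill π hN j₀ (a := a) (by lia) (fun i h1 h2 => ih i (by omega) h1) _
          fun i e h1 => ?_
        by_cases he2 : e - kq (ν := ν) a 0 ∅ = 2
        · rw [← pre_comp, pm_comp _ _ h1 hp (hga_mul' hp h1 (by ring))]
          exact ihk _ (by lia) (by push_cast at he; lia) _ _
        · exact absurd (hga_inj h1 (hga_X i) he2) (X_ne_zero i)
    rw [← pre_id π x, ← pm_one d (by rw [sub_self]; exact hga_one)]
    exact Q (2 * n0 - d).toNat d le_rfl (by lia) _ _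

/-- **Serre vanishing.** -/
theorem ext_free (hN : Reg m N.obj) {ι : Type} [Fintype ι] {q : ι → ℤ}
    (hq : ∀ i, Even (q i) → 2 * m ≤ q i) {j : ℕ} (hj : 1 ≤ j)
    (x : Ext (π.obj (FrA I q)) (π.obj N) j) : x = 0 := by
  classical
  refine ext_pieces π q x fun i => ?_
  by_cases hi : Even (q i)
  · exact ext_rank1 π hN j hj _ (hq i hi) _
  · exact ext_odd π hi _

end

variable [HasDerivedCategory.{w} 𝒞]

omit [FrOK I] [π.Additive] [π.IsLocalization (tors I).isoModSerre] in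
theorem zero_of_ext {A B : 𝒞} {k : ℤ} (hk : 0 ≤ k)
    (h : ∀ [HasExt.{w} 𝒞] (x : Ext.{w} A B k.toNat), x = 0)
    (f : (DerivedCategory.singleFunctor 𝒞 0).obj A ⟶
      ((DerivedCategory.singleFunctor 𝒞 0).obj B)⟦k⟧) : f = 0 := by
  obtain ⟨k, rfl⟩ := Int.eq_ofNat_of_zero_le hk
  have := hasExt_of_hasDerivedCategory 𝒞
  have h1 : (Ext.homEquiv.symm f : Ext.{w} A B k) = 0 := h _
  have h2 : Ext.homEquiv (Ext.homEquiv.symm f : Ext.{w} A B k) = f := Equiv.apply_symm_apply _ _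
  rw [← h2, h1]
  exact Ext.zero_hom _ _ _

/-- **Serre vanishing** in the derived category. -/
theorem ext_zero (hN : Reg m N.obj) {ι : Type} [Fintype ι] {q : ι → ℤ}
    (hq : ∀ i, Even (q i) → 2 * m ≤ q i) {k : ℤ} (hk : 0 < k)
    (f : (DerivedCategory.singleFunctor 𝒞 0).obj (π.obj (FrA I q)) ⟶
      ((DerivedCategory.singleFunctor 𝒞 0).obj (π.obj N))⟦k⟧) : f = 0 :=
  zero_of_ext hk.le (fun x => ext_free π hN hq (by lia) x) f

/-- free modules with generators of degree `≥ m` -/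
def FrGe (m : ℤ) (M : GA I) : Prop := ∃ (ι : Type) (_ : Fintype ι) (q : ι → ℤ),
  (∀ i, Even (q i) → 2 * m ≤ q i) ∧ Nonempty (M ≅ FrA I q)

theorem FrGe.low {M : GA I} (h : FrGe m M) : Low m M.obj := by
  obtain ⟨ι, _, q, hq, ⟨e⟩⟩ := h
  exact (low_free I hq).of_inj e.hom.hom (GA_app_injective I e.hom)

/-- **Maps in the derived category from a bounded above complex of free modules to a bounded below
complex of regular modules are homotopy classes of chain maps.** -/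
theorem cmp (X Y : CochainComplex (GA I) ℤ) (a b : ℤ) (hX : X.IsStrictlyLE a)
    (hY : Y.IsStrictlyGE b) (hF : ∀ i, FrGe m (X.X i)) (hR : ∀ j, Reg m (Y.X j).obj) (n : ℤ) :
    H409.Inj (π.mapHomotopyCategory (ComplexShape.up ℤ) ⋙ DerivedCategory.Qh)
      ((HomotopyCategory.quotient (GA I) (ComplexShape.up ℤ)).obj X)
      (((HomotopyCategory.quotient (GA I) (ComplexShape.up ℤ)).obj Y)⟦n⟧) ∧
    H409.Sur (π.mapHomotopyCategory (ComplexShape.up ℤ) ⋙ DerivedCategory.Qh)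
      ((HomotopyCategory.quotient (GA I) (ComplexShape.up ℤ)).obj X)
      (((HomotopyCategory.quotient (GA I) (ComplexShape.up ℤ)).obj Y)⟦n⟧) := by
  refine H409.ffπ π X Y a b hX hY (fun i j => pi_bij π (hF i).low (hR j)) (fun i j k hk => ?_) n
  obtain ⟨ι, _, q, hq, ⟨e⟩⟩ := hF i
  exact H409.van_iso (π.mapIso e) (Iso.refl _) (fun k hk => ext_zero π (hR j) hq hk) k hk

end Vale.Agent.P287T.Sv
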