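import Vale.Agent.P287Z.O.H409.Peel

/-!
# The quotient of the derived category by a thick subcategory
-/

set_option linter.unusedSectionVars false

open CategoryTheory Limits Pretriangulated HomologicalComplex

universe w v u

namespace Vale.Agent.P287T.Sv

open Vale.Agent.P287Z.O.H409

variable {𝒞 : Type u} [Category.{v} 𝒞] [Abelian 𝒞] [HasDerivedCategory.{w} 𝒞]
  (𝒯 : ObjectProperty (DerivedCategory 𝒞)) [𝒯.IsTriangulated] [𝒯.IsStableUnderRetracts]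

/-- the objects of the heart which lie in `𝒯` -/
def Ht (A : 𝒞) : Prop := 𝒯 ((DerivedCategory.singleFunctor 𝒞 0).obj A)

/-- the functor from the heart to the quotient -/
noncomputable abbrev vq : 𝒞 ⥤ 𝒯.trW.Localization :=
  DerivedCategory.singleFunctor 𝒞 0 ⋙ 𝒯.trW.Q

variable {𝒯}

theorem q_zero {X Y : DerivedCategory 𝒞} (f : X ⟶ Y) :
    𝒯.trW.Q.map f = 0 ↔ ∃ (Z : DerivedCategory 𝒞) (s : Z ⟶ X), 𝒯.trW s ∧ s ≫ f = 0 := by
  rw [← 𝒯.trW.Q.map_zero, MorphismProperty.map_eq_iff_precomp 𝒯.trW.Q 𝒯.trW]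
  simp only [comp_zero, exists_prop]

theorem ht_iff (A : 𝒞) : Ht 𝒯 A ↔ (vq 𝒯).map (𝟙 A) = 0 := by
  rw [Functor.comp_map, q_zero, CategoryTheory.Functor.map_id]
  constructor
  · intro h
    exact ⟨_, 0, ObjectProperty.trW.mk 𝒯 (contractible_distinguished₁ _) h, zero_comp⟩
  · rintro ⟨Z, s, ⟨Y, g, δ, hT, hY⟩, hs⟩
    rw [Category.comp_id] at hs
    obtain ⟨r, hr⟩ := Triangle.yoneda_exact₂ _ hT (𝟙 _) ((Category.comp_id _).trans hs)
    exact 𝒯.prop_of_retract ⟨g, r, hr.symm⟩ hY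

theorem Ht.iso {A B : 𝒞} (h : Ht 𝒯 A) (e : A ≅ B) : Ht 𝒯 B :=
  𝒯.prop_of_iso ((DerivedCategory.singleFunctor 𝒞 0).mapIso e) h

theorem Ht.fac {A B P : 𝒞} (h : Ht 𝒯 P) (a : A ⟶ P) (b : P ⟶ B) : (vq 𝒯).map (a ≫ b) = 0 := by
  rw [← Category.id_comp b, Functor.map_comp, Functor.map_comp, (ht_iff P).1 h, zero_comp,
    comp_zero]

theorem ht_zero {A : 𝒞} (h : IsZero A) : Ht 𝒯 A :=
  (ht_iff A).2 (by rw [h.eq_of_src (𝟙 A) 0, Functor.map_zero])

theorem vq_iso {A B : 𝒞} (f : A ⟶ B) (hk : Ht 𝒯 (kernel f)) (hc : Ht 𝒯 (cokernel f)) :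
    IsIso ((vq 𝒯).map f) := by
  have h1 : (ShortComplex.mk _ _ (cokernel.condition (kernel.ι f))).ShortExact :=
    { exact := ShortComplex.exact_of_g_is_cokernel _ (cokernelIsCokernel _) }
  have h2 : (ShortComplex.mk _ _ (kernel.condition (cokernel.π f))).ShortExact :=
    { exact := ShortComplex.exact_of_f_is_kernel _ (kernelIsKernel _) }
  have i1 : IsIso ((vq 𝒯).map (Abelian.coimage.π f)) := Localization.inverts 𝒯.trW.Q 𝒯.trW _
    (ObjectProperty.trW.mk' 𝒯 h1.singleTriangle_distinguished hk)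
  have i2 : IsIso ((vq 𝒯).map (Abelian.image.ι f)) := Localization.inverts 𝒯.trW.Q 𝒯.trW _
    (ObjectProperty.trW.mk 𝒯 h2.singleTriangle_distinguished hc)
  rw [← Abelian.coimage_image_factorisation f, Functor.map_comp, Functor.map_comp]
  infer_instance

theorem ht_of_zero {A B : 𝒞} (f : A ⟶ B) (hk : Ht 𝒯 (kernel f)) (hc : Ht 𝒯 (cokernel f))
    (h : (vq 𝒯).map f = 0) : Ht 𝒯 B := by
  have := vq_iso f hk hc
  rw [ht_iff, ← cancel_epi ((vq 𝒯).map f), h, zero_comp, zero_comp]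

theorem vq_δ {S S' : ShortComplex 𝒞} (hS : S.ShortExact) (hS' : S'.ShortExact) (φ : S ⟶ S')
    (h : Ht 𝒯 S'.X₂) (h1 : (vq 𝒯).map φ.τ₁ = 0) : (vq 𝒯).map φ.τ₃ = 0 := by
  have i1 : IsIso (𝒯.trW.Q.map hS'.singleδ) := Localization.inverts 𝒯.trW.Q 𝒯.trW _
    (ObjectProperty.trW.mk' 𝒯 (rot_of_distTriang _ hS'.singleTriangle_distinguished) h)
  obtain ⟨Z, s, hs, e⟩ := (q_zero _).1 h1
  have h2 : 𝒯.trW.Q.map (((DerivedCategory.singleFunctor 𝒞 0).map φ.τ₁)⟦(1 : ℤ)⟧') = 0 :=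
    (q_zero _).2 ⟨_, _, ObjectProperty.trW.shift hs 1, by
      rw [← Functor.map_comp, e, Functor.map_zero]⟩
  have h3 : hS.singleδ ≫ ((DerivedCategory.singleFunctor 𝒞 0).map φ.τ₁)⟦(1 : ℤ)⟧' =
      (DerivedCategory.singleFunctor 𝒞 0).map φ.τ₃ ≫ hS'.singleδ :=
    (ShortComplex.ShortExact.singleTriangle.map hS hS' φ).comm₃
  rw [← cancel_mono (𝒯.trW.Q.map hS'.singleδ), zero_comp, Functor.comp_map, ← Functor.map_comp,
    ← h3, Functor.map_comp, h2, comp_zero]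

theorem dev_cx (h : ∀ A, Ht 𝒯 A) (n : ℕ) : ∀ (K : CochainComplex 𝒞 ℤ) (a b : ℤ),
    K.IsStrictlyGE a → K.IsStrictlyLE b → b - a < n → 𝒯 (DerivedCategory.Q.obj K) := by
  have q := DerivedCategory.quotientCompQhIso 𝒞
  induction n with
  | zero =>
    intro K a b _ _ hn
    refine 𝒯.prop_of_isZero (DerivedCategory.Q.map_isZero ((IsZero.iff_id_eq_zero _).2 ?_))
    ext i
    by_cases hi : b < i
    · exact (K.isZero_of_isStrictlyLE b i hi).eq_of_src _ _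
    · exact (K.isZero_of_isStrictlyGE a i (by push_cast at hn; lia)).eq_of_src _ _
  | succ n ih =>
    intro K a b _ _ hn
    obtain ⟨f, g, δ, hT⟩ := botT K a
    refine 𝒯.prop_of_iso (q.app K) (𝒯.ext_of_isTriangulatedClosed₂ _
      (DerivedCategory.Qh.map_distinguished _ hT) (𝒯.prop_of_iso (q.app _).symm ?_)
      (𝒯.prop_of_iso (q.app _).symm ?_))
    · refine ih (botK K a) (a + 1) b (botK_isStrictlyGE K a _ rfl) ?_ (by push_cast at hn; lia)
      rw [CochainComplex.isStrictlyLE_iff]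
      intro i hi
      by_cases hia : i = a
      · subst hia
        exact botK_isZero K i
      · exact (K.isZero_of_isStrictlyLE b i hi).of_iso (botK_X K a i hia)
    · exact 𝒯.prop_of_iso (((DerivedCategory.singleFunctors 𝒞).shiftIso (-a) a 0 (by lia)).app _ ≪≫
        (DerivedCategory.singleFunctorIsoCompQ 𝒞 a).app _) (𝒯.le_shift (-a) _ (h (K.X a)))

theorem dev_bdd (h : ∀ A, Ht 𝒯 A) (E : DerivedCategory 𝒞)
    (hE : (DerivedCategory.TStructure.t (C := 𝒞)).bounded E) : 𝒯 E := by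
  obtain ⟨⟨a, ha⟩, ⟨b, hb⟩⟩ := hE
  have : E.IsGE a := ha
  have : E.IsLE b := hb
  obtain ⟨K, hK, hK', ⟨e⟩⟩ := DerivedCategory.exists_iso_Q_obj_of_isGE_of_isLE E a b
  exact 𝒯.prop_of_iso e.symm (dev_cx h (b - a + 1).toNat K a b hK hK' (by lia))

end Vale.Agent.P287T.Sv
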