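import Vale.Agent.P287T.Sv.Mat
import Vale.Agent.P287T.Sv.Vq

/-!
# Generation of the bounded derived category by line bundles
-/

set_option linter.unusedSectionVars false

open CategoryTheory Limits MvPolynomial

universe w v u

namespace Vale.Agent.P287T.Sv

open Vale.Agent.P294.V Vale.Agent.P287Z.Gr

variable {ν : ℕ}

theorem hg_pw (i : Fin ν) (r : ℕ) (a : ℤ) : Hg (2 * (a - (a + -r))) (X i ^ r : Sn ν) :=
  hg_pow i r (by ring)

/-- multiplication by a power of a variable -/
noncomputable def mulT (i : Fin ν) (r : ℕ) (M : GrS ν) : (twS (-r)).obj M ⟶ M where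
  app a := act M (X i ^ r) (a.deg + -r) a.deg
  naturality a b m := by
    ext x
    have h1 := map_eq_act M (a := a.deg + -r) (b := b.deg + -r) ((Dg.sh ν (-r)).map m) x
    refine (congrArg (act M (X i ^ r) (b.deg + -r) b.deg) h1).trans ?_
    refine Eq.trans ?_ (map_eq_act M (a := a.deg) (b := b.deg) m _).symm
    exact act_comm M (hg_mon ((Dg.sh ν (-r)).map m)) (hg_pw i r a.deg) x

variable (I : Ideal (Sn ν))

/-- multiplication by a power of a variable, as a natural transformation -/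
noncomputable def mulB (i : Fin ν) (r : ℕ) : twA I (-r) ⟶ 𝟭 (GA I) where
  app M := ObjectProperty.homMk (mulT i r M.obj)
  naturality M N f := ObjectProperty.hom_ext _ (by
    ext a x
    exact (act_natural_apply f.hom _ (a.deg + -r) a.deg x).symm)

variable {I}

theorem mulB_app (i : Fin ν) (r : ℕ) (M : GA I) (a : ℤ) (x : M.obj.obj ⟨a + -r⟩) :
    ((mulB I i r).app M).hom.app ⟨a⟩ x = act M.obj (X i ^ r) (a + -r) a x := rfl

theorem mulB_nat (i : Fin ν) (r : ℕ) {M N : GA I} (f : M ⟶ N) :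
    (twA I (-r)).map f ≫ (mulB I i r).app N = (mulB I i r).app M ≫ f := (mulB I i r).naturality f

theorem mulB_zero {i : Fin ν} {r : ℕ} {M : GA I} : (mulB I i r).app M = 0 ↔
    ∀ a b x, act M.obj (X i ^ r) a b x = 0 := by
  refine ⟨fun h a b x => ?_, fun h => ObjectProperty.hom_ext _ ?_⟩
  · by_cases e : a = b + -r
    · subst e
      exact congr(($h).hom.app ⟨b⟩ x)
    · rw [act_eq_zero_of_hg _ (hg_pow i r rfl) (by lia)]
      rfl
  · ext a x
    exact h _ _ _

theorem mulB_self (i : Fin ν) (r : ℕ) (M : GA I) :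
    (mulB I i r).app ((twA I (-r)).obj M) = (twA I (-r)).map ((mulB I i r).app M) :=
  ObjectProperty.hom_ext _ (by
    ext a x
    change act ((twS (-r)).obj M.obj) _ (a.deg + -r) a.deg x = _
    rw [act_tw]
    rfl)

/-- the module is killed by a power of the variable -/
def Kl (i : Fin ν) (M : GA I) : Prop := ∃ r, (mulB I i r).app M = 0

theorem Kl.sub {i : Fin ν} {M N : GA I} (h : Kl i N) (f : M ⟶ N) [Mono f] : Kl i M :=
  h.imp fun r e => by rw [← cancel_mono f, ← mulB_nat, e, comp_zero, zero_comp]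

theorem Kl.quo {i : Fin ν} {M N : GA I} (h : Kl i M) (f : M ⟶ N) [Epi f] : Kl i N :=
  h.imp fun r e => by rw [← cancel_epi ((twA I (-r)).map f), mulB_nat, e, comp_zero, zero_comp]

theorem Kl.tw {i : Fin ν} {M : GA I} (h : Kl i M) (k : ℤ) : Kl i ((twA I k).obj M) :=
  h.imp fun r e => mulB_zero.2 fun a b x => by
    change act ((twS k).obj M.obj) _ a b x = 0
    rw [act_tw]
    exact mulB_zero.1 e _ _ _

theorem kl_ker (i : Fin ν) (r : ℕ) (M : GA I) : Kl i (kernel ((mulB I i r).app M)) :=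
  ⟨r, by rw [← cancel_mono (kernel.ι _), ← mulB_nat, mulB_self, ← Functor.map_comp,
    kernel.condition, Functor.map_zero, zero_comp]⟩

theorem kl_cok (i : Fin ν) (r : ℕ) (M : GA I) : Kl i (cokernel ((mulB I i r).app M)) :=
  ⟨r, by
    rw [← cancel_epi ((twA I (-r)).map (cokernel.π _)), comp_zero]
    exact (mulB_nat i r _).trans (cokernel.condition _)⟩

theorem tors_of_kl {M : GA I} (h : ∀ i, Kl i M) : tors I M := by
  choose r hr using h
  obtain ⟨n, hn⟩ := bdd_above fun i => (r i : ℤ)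
  obtain ⟨k, hk⟩ := high_zero M.property.2 n.toNat fun i a b v => by
    have := hn i
    rw [show n.toNat = r i + (n.toNat - r i) by lia, pow_add,
      act_mul_apply (b := a + r i) _ (hg_pow i _ (by ring)), mulB_zero.1 (hr i), map_zero]
  exact ⟨k, fun a ha => ⟨fun x y => (hk a ha x).trans (hk a ha y).symm⟩⟩

/-- powers of the variables factor through projective modules -/
def LP (M : GA I) : Prop := ∀ i, ∃ (r : ℕ) (P : GA I) (a : (twA I (-r)).obj M ⟶ P) (b : P ⟶ M),
  Projective P ∧ a ≫ b = (mulB I i r).app M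

variable [FrOK I]

theorem proj_free {ι : Type} [Fintype ι] (q : ι → ℤ) : Projective (FrA I q) where
  factors f p _ := free_proj f p fun _ _ => GA_app_surjective I p _ _

theorem exists_cover {m : ℤ} {M : GA I} (h : Low m M.obj) : ∃ (r : ℕ) (d : Fin r → ℤ),
    (∀ k, m ≤ d k) ∧ ∃ p : FrA I (fun k => 2 * d k) ⟶ M, Epi p := by
  obtain ⟨r, d, g, hg⟩ := M.property.2
  let x (k) : M.obj.obj ⟨2 * max m (d k) / 2⟩ := act M.obj 1 _ _ (g k)
  refine ⟨r, fun k => max m (d k), fun k => le_max_left _ _,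
    ObjectProperty.homMk (desc M.property.1 x), GA_epi_of_surjective I _ fun a v => ?_⟩
  have : gsp M.obj d g a ≤ LinearMap.range
      ((desc (q := fun k => 2 * max m (d k)) M.property.1 x).app ⟨a⟩).hom := by
    refine Submodule.span_le.2 ?_
    rintro _ ⟨k, u, rfl⟩
    rcases lt_or_ge (d k) m with hk | hk
    · rw [h _ hk (g k), map_zero]
      exact zero_mem _
    refine ⟨act _ (monomial u.1 1) _ a (gen I (fun k => 2 * max m (d k)) k), ?_⟩
    refine (act_natural_apply _ _ _ _ _).trans ?_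
    rw [desc_gen M.property.1 x k (by lia), ← act_mul_apply _ (by
      rw [show 2 * max m (d k) / 2 - d k = 0 by lia]; exact hga_one), one_mul, map_eq_act]
  exact this (hg a v)

variable (I) in
/-- the `n`-th syzygies are locally projective -/
def Sz (n : ℕ) : Prop := ∀ (r : ℕ → ℕ) (d : ∀ j, Fin (r j) → ℤ) (K : ℕ → GA I)
  (f : ∀ j, K (j + 1) ⟶ FrA I fun k => 2 * d j k) (p : ∀ j, (FrA I fun k => 2 * d j k) ⟶ K j)
  (w : ∀ j, f j ≫ p j = 0), (∀ j, (ShortComplex.mk (f j) (p j) (w j)).ShortExact) → LP (K n)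

theorem exists_chain {m : ℤ} {M : GA I} (h : Low m M.obj) : ∃ (r : ℕ → ℕ)
    (d : ∀ j, Fin (r j) → ℤ) (K : ℕ → GA I) (f : ∀ j, K (j + 1) ⟶ FrA I fun k => 2 * d j k)
    (p : ∀ j, (FrA I fun k => 2 * d j k) ⟶ K j) (w : ∀ j, f j ≫ p j = 0), K 0 = M ∧
      (∀ j k, m ≤ d j k) ∧ (∀ j, Low m (K j).obj) ∧
      ∀ j, (ShortComplex.mk (f j) (p j) (w j)).ShortExact := by
  choose r d hd p hp using fun N : {N : GA I // Low m N.obj} => exists_cover N.2
  let T : ℕ → {N : GA I // Low m N.obj} := Nat.rec ⟨M, h⟩ fun _ N => ⟨kernel (p N),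
    (low_free I fun k _ => by have := hd N k; lia).of_inj (kernel.ι (p N)).hom
      (GA_app_injective I _)⟩
  exact ⟨fun j => r (T j), fun j => d (T j), fun j => (T j).1, fun j => kernel.ι (p (T j)),
    fun j => p (T j), fun j => kernel.condition _, rfl, fun j => hd _, fun j => (T j).2,
    fun j => { exact := ShortComplex.exact_of_f_is_kernel _ (kernelIsKernel _)
               mono_f := inferInstanceAs (Mono (kernel.ι (p (T j))))
               epi_g := hp _ }⟩

variable {𝒞 : Type u} [Category.{v} 𝒞] [Abelian 𝒞] (π : GA I ⥤ 𝒞) [π.Additive]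
  [π.IsLocalization (tors I).isoModSerre] [HasDerivedCategory.{w} 𝒞]
  {𝒯 : ObjectProperty (DerivedCategory 𝒞)} [𝒯.IsTriangulated] [𝒯.IsStableUnderRetracts] {m : ℤ}

theorem ht_free (h : ∀ d ≥ m, Ht 𝒯 (π.obj (O1 I (2 * d)))) {r : ℕ} {d : Fin r → ℤ}
    (hd : ∀ k, m ≤ d k) : Ht 𝒯 (π.obj (FrA I fun k => 2 * d k)) := by
  rw [ht_iff, ← π.map_id, ← sum_prj_inc, Functor.map_sum, Functor.map_sum]
  refine Finset.sum_eq_zero fun k _ => ?_
  rw [Functor.map_comp]
  exact (h _ (hd k)).fac _ _

theorem sz_zero (h : ∀ d ≥ m, Ht 𝒯 (π.obj (O1 I (2 * d)))) {n : ℕ} (hs : Sz I n) (i : Fin ν)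
    {M : GA I} (hl : Low m M.obj) : ∃ r, (vq 𝒯).map (π.map ((mulB I i r).app M)) = 0 := by
  have := ObjectProperty.SerreClassLocalization.preservesFiniteLimits π (tors I)
  have := ObjectProperty.SerreClassLocalization.preservesFiniteColimits π (tors I)
  obtain ⟨s, d, K, f, p, w, rfl, hd, -, hK⟩ := exists_chain hl
  obtain ⟨r, P, a, b, hP, e⟩ := hs s d K f p w hK i
  have hp : Epi (p n) := (hK n).epi_g
  have h1 : (vq 𝒯).map (π.map ((mulB I i r).app (K n))) = 0 := by
    rw [← e, ← Projective.factorThru_comp b (p n), ← Category.assoc, π.map_comp]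
    exact (ht_free π h (hd n)).fac _ _
  refine ⟨r, ?_⟩
  clear e hp hs a b
  induction n with
  | zero => exact h1
  | succ n ih =>
    exact ih (vq_δ (((hK n).map_of_exact (twA I (-r))).map_of_exact π) ((hK n).map_of_exact π)
      (π.mapShortComplex.map ((ShortComplex.mk _ _ (w n)).mapNatTrans (mulB I i r)))
      (ht_free π h (hd n)) h1)

theorem ht_all (h : ∀ d ≥ m, Ht 𝒯 (π.obj (O1 I (2 * d)))) {n : ℕ} (hs : Sz I n)
    (T : Finset (Fin ν)) : ∀ M : GA I, (∀ j ∉ T, Kl j M) → Ht 𝒯 (π.obj M) := by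
  have := ObjectProperty.SerreClassLocalization.preservesFiniteLimits π (tors I)
  have := ObjectProperty.SerreClassLocalization.preservesFiniteColimits π (tors I)
  induction T using Finset.induction_on with
  | empty =>
    exact fun M hM => ht_zero ((ObjectProperty.SerreClassLocalization.isZero_obj_iff π (tors I)
      M).2 (tors_of_kl fun j => hM j (Finset.notMem_empty j)))
  | insert i T _ ih =>
    intro M hM
    have := Localization.inverts π (tors I).isoModSerre _ (trc_iso m M)
    have : Mono (trcι m M) := GA_mono_of_injective I _ fun _ => Subtype.val_injective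
    obtain ⟨r, hr⟩ := sz_zero π h hs i (low_trc m M)
    have hM' : ∀ j, j ≠ i → j ∉ T → Kl j (trc m M) := fun j h1 h2 =>
      (hM j fun h3 => (Finset.mem_insert.1 h3).elim h1 h2).sub (trcι m M)
    refine (ht_of_zero _ ((ih _ fun j hj => ?_).iso (PreservesKernel.iso π _))
      ((ih _ fun j hj => ?_).iso (PreservesCokernel.iso π _)) hr).iso (asIso (π.map (trcι m M)))
    · rcases eq_or_ne j i with rfl | h1
      · exact kl_ker _ _ _
      · exact ((hM' j h1 hj).tw _).sub (kernel.ι _)
    · rcases eq_or_ne j i with rfl | h1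
      · exact kl_cok _ _ _
      · exact (hM' j h1 hj).quo (cokernel.π _)

/-- **The sheaves `𝒪(-d)`, `d ≥ m`, generate the bounded derived category.** -/
theorem gen_of_sz (h : ∀ d ≥ m, Ht 𝒯 (π.obj (O1 I (2 * d)))) {n : ℕ} (hs : Sz I n)
    (E : DerivedCategory 𝒞) (hE : (DerivedCategory.TStructure.t (C := 𝒞)).bounded E) : 𝒯 E := by
  have := Localization.essSurj π (tors I).isoModSerre
  exact dev_bdd (fun A => (ht_all π h hs Finset.univ _ fun j hj =>
    absurd (Finset.mem_univ j) hj).iso (π.objObjPreimageIso A)) E hE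

end Vale.Agent.P287T.Sv
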