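import Vale.Agent.P287T.Sv.Reg

/-!
# Uniform regularity of the pieces of a finitely generated bigraded module
-/

open CategoryTheory Limits MvPolynomial

namespace Vale.Agent.P287T.Sv

open Vale.Agent.P294.V Vale.Agent.P287Z.Gr Vale.Agent.P287Z.O.H335

theorem chain_stab {P : Type*} [AddCommGroup P] [Module ℂ P] {S : Set (Module.End ℂ P)}
    (hS : S.Finite) (hc : ∀ s ∈ S, ∀ t ∈ S, s * t = t * s) {G : Set P} (hG : G.Finite)
    (f : ℕ → Submodule ℂ P) (hm : Monotone f) (hs : ∀ n, ∀ s ∈ S, ∀ v ∈ f n, s v ∈ f n)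
    (hle : ∀ n, ∀ Q : Submodule ℂ P, G ⊆ Q → (∀ s ∈ S, ∀ v ∈ Q, s v ∈ Q) → f n ≤ Q) :
    ∃ n, ∀ m, n ≤ m → f m ≤ f n := by
  have := Algebra.isMulCommutative_adjoin ℂ hc
  let _ : CommRing (Algebra.adjoin ℂ S) := { mul_comm := fun a b => mul_comm' a b }
  have : Algebra.FiniteType ℂ (Algebra.adjoin ℂ S) :=
    (Subalgebra.fg_iff_finiteType _).1 ⟨hS.toFinset, by rw [hS.coe_toFinset]⟩
  have : IsNoetherianRing (Algebra.adjoin ℂ S) := Algebra.FiniteType.isNoetherianRing ℂ _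
  have hW : IsNoetherian (Algebra.adjoin ℂ S) (Submodule.span (Algebra.adjoin ℂ S) G) :=
    isNoetherian_span_of_finite _ hG
  let F : ℕ → Submodule (Algebra.adjoin ℂ S) P := fun n =>
    { carrier := f n
      add_mem' := add_mem
      zero_mem' := zero_mem _
      smul_mem' := fun c v hv => by
        obtain ⟨c, hc⟩ := c
        change c v ∈ f n
        induction hc using Algebra.adjoin_induction generalizing v with
        | mem s h => exact hs n s h v hv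
        | algebraMap r => exact (f n).smul_mem r hv
        | add x y _ _ hx hy => exact add_mem (hx v hv) (hy v hv)
        | mul x y _ _ hx hy => exact hx _ (hy v hv) }
  have hF : ∀ n, F n ≤ Submodule.span (Algebra.adjoin ℂ S) G := fun n =>
    hle n ((Submodule.span (Algebra.adjoin ℂ S) G).restrictScalars ℂ) Submodule.subset_span
      fun s h v hv => Submodule.smul_mem _ (⟨s, Algebra.subset_adjoin h⟩ : Algebra.adjoin ℂ S) hv
  obtain ⟨n, hn⟩ := monotone_stabilizes_iff_noetherian.2 hW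
    ⟨fun n => (F n).comap (Submodule.span (Algebra.adjoin ℂ S) G).subtype,
      fun a b h => Submodule.comap_mono (show F a ≤ F b from hm h)⟩
  refine ⟨n, fun m h v hv => ?_⟩
  have h1 : (⟨v, hF m hv⟩ : Submodule.span (Algebra.adjoin ℂ S) G) ∈
    (F m).comap (Submodule.span (Algebra.adjoin ℂ S) G).subtype := hv
  have h2 : (F n).comap (Submodule.span (Algebra.adjoin ℂ S) G).subtype =
    (F m).comap (Submodule.span (Algebra.adjoin ℂ S) G).subtype := hn m h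
  rw [← h2] at h1
  exact h1

variable {ν : ℕ} {τ : Type}

section

variable (M : ℤ → GrS ν) (ξ : τ → ∀ k l : ℤ, M k ⟶ M l)

/-- the total space -/
abbrev TP : Type := ∀ p : ℤ × ℤ, (M p.1).obj ⟨p.2⟩

/-- the variables of the first kind -/
noncomputable def opY (i : Fin ν) : Module.End ℂ (TP M) :=
  LinearMap.pi fun p => (act (M p.1) (X i) (p.2 - 1) p.2).hom ∘ₗ LinearMap.proj (p.1, p.2 - 1)

/-- the variables of the second kind -/
noncomputable def opX (j : τ) : Module.End ℂ (TP M) :=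
  LinearMap.pi fun p => ((ξ j (p.1 - 1) p.1).app ⟨p.2⟩).hom ∘ₗ LinearMap.proj (p.1 - 1, p.2)

theorem opY_apply (i : Fin ν) (v : TP M) (p : ℤ × ℤ) :
    opY M i v p = act (M p.1) (X i) (p.2 - 1) p.2 (v (p.1, p.2 - 1)) := rfl

theorem opX_apply (j : τ) (v : TP M) (p : ℤ × ℤ) :
    opX M ξ j v p = (ξ j (p.1 - 1) p.1).app ⟨p.2⟩ (v (p.1 - 1, p.2)) := rfl

/-- homogeneous elements -/
noncomputable def sn (k a : ℤ) : (M k).obj ⟨a⟩ →ₗ[ℂ] TP M :=
  LinearMap.single ℂ (fun p : ℤ × ℤ => (M p.1).obj ⟨p.2⟩) (k, a)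

theorem sn_same (k a : ℤ) (z : (M k).obj ⟨a⟩) : sn M k a z (k, a) = z :=
  Pi.single_eq_same (M := fun p : ℤ × ℤ => (M p.1).obj ⟨p.2⟩) (k, a) z

theorem sn_ne (k a : ℤ) (z : (M k).obj ⟨a⟩) {p : ℤ × ℤ} (h : p ≠ (k, a)) : sn M k a z p = 0 :=
  Pi.single_eq_of_ne (M := fun p : ℤ × ℤ => (M p.1).obj ⟨p.2⟩) h z

theorem opY_sn (i : Fin ν) (k : ℤ) {a b : ℤ} (h : a + 1 = b) (z : (M k).obj ⟨a⟩) :
    opY M i (sn M k a z) = sn M k b (act (M k) (X i) a b z) := by
  obtain rfl : a = b - 1 := by lia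
  funext p
  rw [opY_apply]
  by_cases hp : p = (k, b)
  · subst hp; rw [sn_same, sn_same]
  · rw [sn_ne M _ _ _ hp, sn_ne, map_zero]
    intro e
    exact hp (Prod.ext (Prod.ext_iff.1 e).1 (by have := (Prod.ext_iff.1 e).2; simp at this; lia))

theorem opX_sn (j : τ) {k l : ℤ} (h : k + 1 = l) (a : ℤ) (z : (M k).obj ⟨a⟩) :
    opX M ξ j (sn M k a z) = sn M l a ((ξ j k l).app ⟨a⟩ z) := by
  obtain rfl : k = l - 1 := by lia
  funext p
  rw [opX_apply]
  by_cases hp : p = (l, a)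
  · subst hp; rw [sn_same, sn_same]
  · rw [sn_ne M _ _ _ hp, sn_ne, map_zero]
    intro e
    exact hp (Prod.ext (by have := (Prod.ext_iff.1 e).1; simp at this; lia) (Prod.ext_iff.1 e).2)

theorem sn_mon {Q : Submodule ℂ (TP M)} (hQ : ∀ i, ∀ v ∈ Q, opY M i v ∈ Q) (k a : ℤ)
    (z : (M k).obj ⟨a⟩) (hz : sn M k a z ∈ Q) (n : ℕ) : ∀ (m : Fin ν →₀ ℕ) (b : ℤ), m.degree = n →
      a + n = b → sn M k b (act (M k) (monomial m 1) a b z) ∈ Q := by
  induction n with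
  | zero =>
    intro m b hm hb
    obtain rfl : m = 0 := (Finsupp.degree_eq_zero_iff _).1 hm
    obtain rfl : a = b := by simpa using hb
    rwa [show (monomial 0 1 : Sn ν) = 1 from rfl, act_one_apply]
  | succ n ih =>
    intro m b hm hb
    obtain ⟨i, hi⟩ := Finsupp.ne_iff.1 (show m ≠ 0 by rintro rfl; simp at hm)
    have h3 : m - Finsupp.single i 1 + Finsupp.single i 1 = m :=
      tsub_add_cancel_of_le (Finsupp.single_le_iff.2 (Nat.one_le_iff_ne_zero.2 hi))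
    have h4 : (m - Finsupp.single i 1).degree = n := by
      rw [← h3, map_add, Finsupp.degree_single] at hm; lia
    have h5 : a + n + 1 = b := by push_cast at hb; lia
    have := hQ i _ (ih _ _ h4 rfl)
    rwa [opY_sn M i k h5, act_mul_apply' _ _ (hg_X i h5), X, monomial_mul, h3, mul_one] at this

end

/-- the graded pieces of a finitely generated bigraded module -/
structure Fam (M : ℤ → GrS ν) (ξ : τ → ∀ k l : ℤ, M k ⟶ M l) [Fintype τ] : Prop where
  fg : ∀ k, fg (M k)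
  comm : ∀ i j a b c, a + 1 = b → b + 1 = c → ξ i a b ≫ ξ j b c = ξ j a b ≫ ξ i b c
  lo : ∃ k₁, ∀ k < k₁, ∀ a (v : (M k).obj ⟨a⟩), v = 0
  hi : ∃ k₀, ∀ k l, k + 1 = l → k₀ ≤ k → ∀ a (v : (M l).obj ⟨a⟩),
    ∃ u : τ → (M k).obj ⟨a⟩, v = ∑ j, (ξ j k l).app ⟨a⟩ (u j)

variable [Fintype τ] {M : ℤ → GrS ν} {ξ : τ → ∀ k l : ℤ, M k ⟶ M l}

theorem Fam.gen (h : Fam M ξ) : ∃ G : Set (TP M), G.Finite ∧ ∀ Q : Submodule ℂ (TP M), G ⊆ Q →
    (∀ i, ∀ v ∈ Q, opY M i v ∈ Q) → (∀ j, ∀ v ∈ Q, opX M ξ j v ∈ Q) →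
      ∀ k a z, sn M k a z ∈ Q := by
  choose n d g hg using h.fg
  obtain ⟨k₁, h₁⟩ := h.lo
  obtain ⟨k₀, h₀⟩ := h.hi
  refine ⟨⋃ k ∈ Set.Icc k₁ k₀, Set.range fun t => sn M k (d k t) (g k t),
    (Set.finite_Icc _ _).biUnion fun k _ => Set.finite_range _, fun Q hG hY hX => ?_⟩
  have low : ∀ k ≤ k₀, ∀ a z, sn M k a z ∈ Q := fun k hk a z => by
    rcases lt_or_ge k k₁ with h' | h'
    · rw [h₁ k h' a z, map_zero]; exact zero_mem _
    have : gsp (M k) (d k) (g k) a ≤ Q.comap (sn M k a) := by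
      refine Submodule.span_le.2 ?_
      rintro _ ⟨t, m, rfl⟩
      rw [SetLike.mem_coe, Submodule.mem_comap, map_eq_act]
      exact sn_mon M hY k _ _ (hG (Set.mem_biUnion (show k ∈ Set.Icc k₁ k₀ from ⟨h', hk⟩)
        ⟨t, rfl⟩)) _ m.1 a rfl m.2
    exact this (hg k a z)
  intro k
  rcases le_or_gt k k₀ with hk | hk
  · exact low k hk
  induction k, hk.le using Int.leInduction with
  | base => exact low _ le_rfl
  | succ k hk' ih =>
    intro a z
    obtain ⟨u, rfl⟩ := h₀ k (k + 1) rfl hk' a z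
    rw [map_sum]
    refine Submodule.sum_mem _ fun j _ => ?_
    rw [← opX_sn M ξ j rfl]
    refine hX j _ ?_
    rcases hk'.eq_or_lt with e | e
    · exact low k e.ge _ _
    · exact ih e _ _

/-- uniform generation from lower degrees -/
theorem Fam.gen_uni (h : Fam M ξ) (Z : ∀ k a : ℤ, Submodule ℂ ((M k).obj ⟨a⟩))
    (hZ : ∀ k, Stb (M k) (Z k))
    (hX : ∀ j k l a, k + 1 = l → ∀ v ∈ Z k a, (ξ j k l).app ⟨a⟩ v ∈ Z l a) :
    ∃ n : ℤ, ∀ k a b : ℤ, a + 1 = b → n ≤ b → ∀ z ∈ Z k b,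
      ∃ w : Fin ν → (M k).obj ⟨a⟩, (∀ i, w i ∈ Z k a) ∧
        z = ∑ i, act (M k) (X i) a b (w i) := by
  classical
  obtain ⟨G, hG, gen⟩ := h.gen
  let S : Set (Module.End ℂ (TP M)) := Set.range (opY M) ∪ Set.range (opX M ξ)
  have hYX : ∀ i j, opY M i * opX M ξ j = opX M ξ j * opY M i := fun i j =>
    LinearMap.ext fun v => funext fun p => (act_natural_apply _ _ _ _ _).symm
  have hc : ∀ s ∈ S, ∀ t ∈ S, s * t = t * s := by
    rintro _ (⟨i, rfl⟩ | ⟨i, rfl⟩) _ (⟨j, rfl⟩ | ⟨j, rfl⟩)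
    · exact LinearMap.ext fun v => funext fun p =>
        act_comm _ (hg_X j (by lia)) (hg_X i (by lia)) _
    · exact hYX i j
    · exact (hYX j i).symm
    · exact LinearMap.ext fun v => funext fun p =>
        congr(($(h.comm j i (p.1 - 1 - 1) (p.1 - 1) p.1 (by lia) (by lia))).app ⟨p.2⟩
          (v (p.1 - 1 - 1, p.2)))
  let f : ℕ → Submodule ℂ (TP M) := fun n => sInf {Q | (∀ s ∈ S, ∀ v ∈ Q, s v ∈ Q) ∧
    ∀ k a, a ≤ (n : ℤ) → ∀ z ∈ Z k a, sn M k a z ∈ Q}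
  obtain ⟨n, hn⟩ := chain_stab ((Set.finite_range _).union (Set.finite_range _)) hc hG f
    (fun a b hab => sInf_le_sInf fun Q hQ => ⟨hQ.1, fun k c hc' => hQ.2 k c (by lia)⟩)
    (fun n s hs v hv => Submodule.mem_sInf.2 fun Q hQ => hQ.1 s hs v (Submodule.mem_sInf.1 hv Q hQ))
    (fun n Q hGQ hQ => sInf_le ⟨hQ, fun k a _ z _ => gen Q hGQ
      (fun i => hQ _ (Or.inl ⟨i, rfl⟩)) (fun j => hQ _ (Or.inr ⟨j, rfl⟩)) k a z⟩)
  let Q : Submodule ℂ (TP M) :=
    { carrier := {v | (∀ p, v p ∈ Z p.1 p.2) ∧ ∀ p : ℤ × ℤ, (n : ℤ) < p.2 →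
        ∃ w : Fin ν → (M p.1).obj ⟨p.2 - 1⟩, (∀ i, w i ∈ Z p.1 (p.2 - 1)) ∧
          v p = ∑ i, act (M p.1) (X i) (p.2 - 1) p.2 (w i)}
      zero_mem' := ⟨fun p => zero_mem _, fun p _ => ⟨0, fun _ => zero_mem _, by simp⟩⟩
      add_mem' := fun {u v} hu hv => ⟨fun p => add_mem (hu.1 p) (hv.1 p), fun p hp => by
        obtain ⟨w, hw, e⟩ := hu.2 p hp
        obtain ⟨w', hw', e'⟩ := hv.2 p hp
        exact ⟨w + w', fun i => add_mem (hw i) (hw' i), by
          simp [e, e', Finset.sum_add_distrib]⟩⟩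
      smul_mem' := fun c v hv => ⟨fun p => Submodule.smul_mem _ c (hv.1 p), fun p hp => by
        obtain ⟨w, hw, e⟩ := hv.2 p hp
        exact ⟨c • w, fun i => Submodule.smul_mem _ c (hw i), by
          simp [e, Finset.smul_sum]⟩⟩ }
  have hQ : f n ≤ Q := by
    refine sInf_le ⟨?_, fun k a ha z hz => ⟨fun p => ?_, fun p hp => ⟨0, fun _ => zero_mem _, ?_⟩⟩⟩
    · rintro _ (⟨i, rfl⟩ | ⟨j, rfl⟩) v hv
      · refine ⟨fun p => (hZ _).act_mem _ _ (hv.1 (p.1, p.2 - 1)), fun p _ =>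
          ⟨Pi.single i (v (p.1, p.2 - 1)), fun k => ?_, ?_⟩⟩
        · by_cases hk : k = i
          · subst hk; rw [Pi.single_eq_same]; exact hv.1 (p.1, p.2 - 1)
          · rw [Pi.single_eq_of_ne hk]; exact zero_mem _
        · rw [Finset.sum_eq_single i, Pi.single_eq_same, opY_apply]
          · intro j _ hj; rw [Pi.single_eq_of_ne hj, map_zero]
          · simp
      · refine ⟨fun p => hX j _ _ _ (by lia) _ (hv.1 (p.1 - 1, p.2)), fun p hp => ?_⟩
        obtain ⟨w, hw, e⟩ := hv.2 (p.1 - 1, p.2) hp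
        refine ⟨fun i => (ξ j (p.1 - 1) p.1).app ⟨p.2 - 1⟩ (w i),
          fun i => hX j _ _ _ (by lia) _ (hw i), ?_⟩
        rw [opX_apply, e, map_sum]
        exact Finset.sum_congr rfl fun i _ => act_natural_apply _ _ _ _ _
    · by_cases hp : p = (k, a)
      · subst hp; rwa [sn_same]
      · rw [sn_ne M _ _ _ hp]; exact zero_mem _
    · rw [sn_ne M _ _ _ (by rintro rfl; simp at hp; lia)]; simp
  refine ⟨n + 1, fun k a b hab hb z hz => ?_⟩
  obtain rfl : a = b - 1 := by lia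
  have h1 : sn M k b z ∈ f b.toNat := Submodule.mem_sInf.2 fun Q hQ => hQ.2 k b (by lia) z hz
  have h2 := (hQ (hn b.toNat (by lia) h1)).2 (k, b) (by simp; lia)
  rwa [sn_same] at h2

/-- componentwise maps -/
noncomputable def piM {T : Type} {M N : T → GrS ν} (f : ∀ t, M t ⟶ N t) : piG M ⟶ piG N where
  app a := ModuleCat.ofHom (LinearMap.pi fun t => ((f t).app a).hom ∘ₗ LinearMap.proj t)
  naturality a b m := by
    ext v
    exact funext fun t => NatTrans.naturality_apply (f t) m (v t)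

theorem Fam.pi (h : Fam M ξ) (T : Type) [Finite T] :
    Fam (fun k => piG fun _ : T => M k) fun j k l => piM fun _ => ξ j k l where
  fg k := fg_piG fun _ => h.fg k
  comm i j a b c hab hbc := by
    ext d v
    exact funext fun t => congr(($(h.comm i j a b c hab hbc)).app d (v t))
  lo := let ⟨k₁, h₁⟩ := h.lo; ⟨k₁, fun k hk a v => funext fun t => h₁ k hk a (v t)⟩
  hi := by
    obtain ⟨k₀, h₀⟩ := h.hi
    refine ⟨k₀, fun k l hkl hk a v => ?_⟩
    choose u hu using fun t => h₀ k l hkl hk a (v t)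
    refine ⟨fun j t => u t j, funext fun t => (hu t).trans ?_⟩
    exact (map_sum ((piP (fun _ : T => M l) t).app ⟨a⟩).hom
      (fun j => (piM fun _ => ξ j k l).app ⟨a⟩ fun t => u t j) Finset.univ).symm

/-- **Uniform regularity.** -/
theorem Fam.reg (h : Fam M ξ) : ∃ m, ∀ k, Reg m (M k) := by
  obtain ⟨n, hn⟩ := (h.pi (Finset (Fin ν))).gen_uni (fun k => Zk (M k)) (fun k => stb_Zk (M k))
    fun j k l a _ v hv c J => (epN_nat (ξ j k l) a c v J).trans (by rw [hv, map_zero])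
  refine ⟨n, fun k => reg_of_gen fun a b hab hb z hz => ?_⟩
  obtain ⟨w, hw, e⟩ := hn k a b hab hb z hz
  refine ⟨w, hw, fun J => ?_⟩
  have h1 := congrArg ((piP (fun _ : Finset (Fin ν) => M k) J).app ⟨b⟩) e
  rw [map_sum] at h1
  exact h1.trans (Finset.sum_congr rfl fun i _ => act_natural_apply _ _ _ _ _)

/-- **Uniform regularity**, successor form. -/
theorem exists_reg_uni (N : ℤ → GrS ν) (x : τ → ∀ k, N k ⟶ N (k + 1)) (hN : ∀ k, fg (N k))
    (hc : ∀ i j k, x i k ≫ x j (k + 1) = x j k ≫ x i (k + 1))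
    (lo : ∃ k₁, ∀ k < k₁, ∀ a (v : (N k).obj ⟨a⟩), v = 0)
    (hi : ∃ k₀, ∀ k, k₀ ≤ k → ∀ a (v : (N (k + 1)).obj ⟨a⟩),
      ∃ u : τ → (N k).obj ⟨a⟩, v = ∑ j, (x j k).app ⟨a⟩ (u j)) : ∃ m, ∀ k, Reg m (N k) := by
  refine Fam.reg (ξ := fun j k l => if h : k + 1 = l then x j k ≫ eqToHom (congrArg N h) else 0)
    ⟨hN, ?_, lo, ?_⟩
  · rintro i j a _ _ rfl rfl
    simpa using hc i j a
  · obtain ⟨k₀, h₀⟩ := hi
    refine ⟨k₀, ?_⟩
    rintro k _ rfl hk a v
    simpa using h₀ k hk a v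

end Vale.Agent.P287T.Sv
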