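import Vale.Agent.P287T.Sv.Reg
import Vale.Agent.P287Z.Gr.Evi

/-!
# Maps of sheaves into a regular module are maps of modules
-/

open CategoryTheory Limits MvPolynomial

universe v u

namespace Vale.Agent.P287T.Sv

open Vale.Agent.P294.V Vale.Agent.P287Z.Gr

variable {ν : ℕ}

/-- the module vanishes in the degrees `< m` -/
def Low (m : ℤ) (M : GrS ν) : Prop := ∀ a < m, ∀ v : M.obj ⟨a⟩, v = 0

theorem exists_low {M : GrS ν} (h : fg M) : ∃ m, Low m M := low_zero h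

theorem Low.mono {m m' : ℤ} {M : GrS ν} (h : Low m M) (hm : m' ≤ m) : Low m' M :=
  fun a ha => h a (ha.trans_le hm)

theorem Low.of_inj {m : ℤ} {M N : GrS ν} (h : Low m N) (f : M ⟶ N)
    (hf : ∀ a : ℤ, Function.Injective (f.app ⟨a⟩)) : Low m M :=
  fun a ha _ => hf a ((h a ha _).trans (map_zero _).symm)

theorem Low.of_surj {m : ℤ} {M N : GrS ν} (h : Low m M) (f : M ⟶ N)
    (hf : ∀ a : ℤ, Function.Surjective (f.app ⟨a⟩)) : Low m N := fun a ha v => by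
  obtain ⟨u, rfl⟩ := hf a v
  rw [h a ha u, map_zero]

theorem Low.tw {m : ℤ} {M : GrS ν} (h : Low m M) (r : ℤ) : Low (m - r) ((twS r).obj M) :=
  fun a ha => h (a + r) (by lia)

theorem low_free (I : Ideal (Sn ν)) {ι : Type} [Fintype ι] {q : ι → ℤ} {m : ℤ}
    (hq : ∀ i, Even (q i) → 2 * m ≤ q i) : Low m (FrO I q) := fun a ha x => by
  obtain ⟨v, hv, rfl⟩ := FrO.mk_surj I x
  refine (FrO.mk_eq_zero I).2 fun i => ?_
  by_cases hi : Even (q i)
  · rw [hga_neg_eq_zero (hv i) (by have := hq i hi; lia)]; exact zero_mem _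
  · rw [hga_odd_eq_zero (hv i) fun ⟨k, hk⟩ => hi ⟨a - k, by lia⟩]; exact zero_mem _

theorem exists_peel {m : Fin ν →₀ ℕ} (h : m ≠ 0) :
    ∃ i m', m = m' + Finsupp.single i 1 := by
  obtain ⟨i, hi⟩ := Finsupp.ne_iff.1 h
  exact ⟨i, m - Finsupp.single i 1, (tsub_add_cancel_of_le
    (Finsupp.single_le_iff.2 (Nat.one_le_iff_ne_zero.2 hi))).symm⟩

theorem X_mul_mon (i : Fin ν) (m : Fin ν →₀ ℕ) :
    (X i * monomial m 1 : Sn ν) = monomial (m + Finsupp.single i 1) 1 := by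
  rw [X, monomial_mul, one_mul, add_comm]

theorem act_mon_X (M : GrS ν) (i : Fin ν) (m : Fin ν →₀ ℕ) (a b : ℤ) (x : M.obj ⟨a⟩) :
    act M (monomial m 1) (a + 1) b (act M (X i) a (a + 1) x) =
      act M (monomial (m + Finsupp.single i 1) 1) a b x := by
  rw [← act_mul_apply _ (hg_X i rfl), X_mul_mon]

namespace Reg

variable {m : ℤ} {N : GrS ν}

theorem tf_all (h : Reg m N) (n : ℤ) {a : ℤ} (ha : m ≤ a) (y : N.obj ⟨a⟩)
    (hy : ∀ b ≥ n, ∀ u : Fin ν →₀ ℕ, act N (monomial u 1) a b y = 0) : y = 0 := by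
  obtain ⟨k, hk⟩ : ∃ k : ℕ, n - a ≤ k := ⟨(n - a).toNat, Int.self_le_toNat _⟩
  induction k generalizing a with
  | zero =>
    rw [← act_one_apply a y]
    exact hy a (by push_cast at hk; lia) 0
  | succ k ih =>
    refine h.tf ha y fun j => ih (by lia) _ (fun b hb u => ?_) (by push_cast at hk; lia)
    rw [act_mon_X]
    exact hy b hb _

theorem tf_all' (h : Reg m N) (n : ℤ) {a : ℤ} (ha : m ≤ a) {y z : N.obj ⟨a⟩}
    (hy : ∀ b ≥ n, ∀ u : Fin ν →₀ ℕ,
      act N (monomial u 1) a b y = act N (monomial u 1) a b z) : y = z := by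
  rw [← sub_eq_zero]
  exact h.tf_all n ha _ fun b hb u => by rw [map_sub, hy b hb u, sub_self]

theorem ext_pt (h : Reg m N) (M : GrS ν) (n : ℤ) (g : ∀ b : ℤ, M.obj ⟨b⟩ →ₗ[ℂ] N.obj ⟨b⟩)
    (hg : ∀ (b c : ℤ) (f : Sn ν) (x : M.obj ⟨b⟩), n ≤ b →
      g c (act M f b c x) = act N f b c (g b x)) {a : ℤ} (ha : m ≤ a) (x : M.obj ⟨a⟩) :
    ∃ y : N.obj ⟨a⟩, ∀ b ≥ n, ∀ u : Fin ν →₀ ℕ,
      act N (monomial u 1) a b y = g b (act M (monomial u 1) a b x) := by
  obtain ⟨k, hk⟩ : ∃ k : ℕ, n - a ≤ k := ⟨(n - a).toNat, Int.self_le_toNat _⟩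
  induction k generalizing a with
  | zero => exact ⟨g a x, fun b hb u => (hg a b _ x (by push_cast at hk; lia)).symm⟩
  | succ k ih =>
    by_cases hna : n ≤ a
    · exact ⟨g a x, fun b hb u => (hg a b _ x hna).symm⟩
    choose y hy using fun j => ih (a := a + 1) (by lia) (act M (X j) a (a + 1) x)
      (by push_cast at hk; lia)
    obtain ⟨z, hz⟩ := h.dp (a := a) rfl (by lia) y fun j l => by
      refine h.tf_all' n (by lia) fun b hb u => ?_
      rw [act_mon_X, act_mon_X, hy l b hb, hy j b hb, act_mon_X, act_mon_X, add_right_comm]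
    refine ⟨z, fun b hb u => ?_⟩
    by_cases hu : u = 0
    · subst hu
      have h1 : Hg 0 (monomial 0 1 : Sn ν) := hga_one
      rw [act_eq_zero_of_hg N h1 (by lia), act_eq_zero_of_hg M h1 (by lia)]
      exact (map_zero (g b)).symm
    obtain ⟨j, u, rfl⟩ := exists_peel hu
    rw [← act_mon_X, ← act_mon_X, hz j, hy j b hb]

theorem ext_hom (h : Reg m N) {M : GrS ν} (hM : Low m M) (n : ℤ)
    (g : ∀ b : ℤ, M.obj ⟨b⟩ →ₗ[ℂ] N.obj ⟨b⟩)
    (hg : ∀ (b c : ℤ) (f : Sn ν) (x : M.obj ⟨b⟩), n ≤ b →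
      g c (act M f b c x) = act N f b c (g b x)) :
    ∃ φ : M ⟶ N, ∀ b ≥ n, ∀ x : M.obj ⟨b⟩, φ.app ⟨b⟩ x = g b x := by
  have key : ∀ a : ℤ, ∃ l : M.obj ⟨a⟩ →ₗ[ℂ] N.obj ⟨a⟩, ∀ x, ∀ b ≥ n, ∀ u : Fin ν →₀ ℕ,
      act N (monomial u 1) a b (l x) = g b (act M (monomial u 1) a b x) := fun a => by
    rcases lt_or_ge a m with ha | ha
    · exact ⟨0, fun x b _ u => by rw [hM a ha x]; simp⟩
    choose y hy using fun x : M.obj ⟨a⟩ => h.ext_pt M n g hg ha x
    refine ⟨{ toFun := y, map_add' := fun x x' => ?_, map_smul' := fun c x => ?_ }, hy⟩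
    · refine h.tf_all' n ha fun b hb u => ?_
      rw [map_add, hy _ b hb, hy _ b hb, hy _ b hb, map_add, map_add]
    · refine h.tf_all' n ha fun b hb u => ?_
      rw [RingHom.id_apply, map_smul, hy _ b hb, hy _ b hb, map_smul, map_smul]
  choose l hl using key
  refine ⟨{ app := fun a => ModuleCat.ofHom (l a.deg), naturality := ?_ }, fun b hb x => ?_⟩
  · rintro ⟨a⟩ ⟨c⟩ u
    ext x
    change l c (M.map u x) = N.map u (l a x)
    rcases lt_or_ge a m with ha | ha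
    · rw [hM a ha x]; simp
    have hc : a + (u.1.degree : ℤ) = c := u.2
    refine h.tf_all' n (by lia) fun b hb u' => ?_
    rw [hl c _ b hb, map_eq_act, map_eq_act, ← act_mul_apply _ (hg_mon u),
      ← act_mul_apply _ (hg_mon u), monomial_mul, mul_one, hl a x b hb]
  · have := hl b x b hb 0
    rwa [show (monomial 0 1 : Sn ν) = 1 from rfl, act_one_apply, act_one_apply] at this

theorem hom_ext (h : Reg m N) {M : GrS ν} (hM : Low m M) (n : ℤ) {f g : M ⟶ N}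
    (e : ∀ b ≥ n, ∀ x, f.app ⟨b⟩ x = g.app ⟨b⟩ x) : f = g := by
  ext ⟨a⟩ x
  change f.app ⟨a⟩ x = g.app ⟨a⟩ x
  rcases lt_or_ge a m with ha | ha
  · rw [hM a ha x, map_zero, map_zero]
  refine h.tf_all' n ha fun b hb u => ?_
  rw [← act_natural_apply, ← act_natural_apply, e b hb]

end Reg

/-- the subspaces of the truncation -/
noncomputable def trZ (n : ℤ) (M : GrS ν) (a : ℤ) : Submodule ℂ (M.obj ⟨a⟩) :=
  if n ≤ a then ⊤ else ⊥

theorem mem_trZ {n : ℤ} {M : GrS ν} {a : ℤ} {v : M.obj ⟨a⟩} : v ∈ trZ n M a ↔ n ≤ a ∨ v = 0 := by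
  rw [trZ]; split_ifs with h <;> simp [h]

theorem stb_trZ (n : ℤ) (M : GrS ν) : Stb M (trZ n M) := fun a b u v hv => by
  have h1 : a + (u.1.degree : ℤ) = b := u.2
  rcases mem_trZ.1 hv with h | rfl
  · exact mem_trZ.2 (Or.inl (by lia))
  · exact mem_trZ.2 (Or.inr (map_zero _))

variable {I : Ideal (Sn ν)}

/-- submodules -/
noncomputable def subA (M : GA I) (Z : ∀ a : ℤ, Submodule ℂ (M.obj.obj ⟨a⟩)) (h : Stb M.obj Z) :
    GA I :=
  have := subι_mono _ Z h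
  ⟨subG _ Z h, (grA I).prop_of_mono (subι _ Z h) M.property⟩

/-- the inclusion -/
noncomputable def subAι (M : GA I) (Z : ∀ a : ℤ, Submodule ℂ (M.obj.obj ⟨a⟩)) (h : Stb M.obj Z) :
    subA M Z h ⟶ M := ObjectProperty.homMk (subι _ Z h)

/-- the truncation `M_{≥ n}` -/
noncomputable def trc (n : ℤ) (M : GA I) : GA I := subA M _ (stb_trZ n M.obj)

/-- the inclusion of the truncation -/
noncomputable def trcι (n : ℤ) (M : GA I) : trc n M ⟶ M := subAι M _ (stb_trZ n M.obj)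

theorem low_trc (n : ℤ) (M : GA I) : Low n (trc n M).obj := fun _ ha v =>
  Subtype.ext ((mem_trZ.1 v.2).resolve_left ha.not_ge)

theorem iso_iff {M N : GA I} (f : M ⟶ N) : (tors I).isoModSerre f ↔
    ∃ n : ℤ, ∀ a ≥ n, Function.Bijective (f.hom.app ⟨a⟩) := by
  rw [isoModSerre_eq]; rfl

theorem trc_bij (n : ℤ) (M : GA I) (a : ℤ) (ha : n ≤ a) :
    Function.Bijective ((trcι n M).hom.app ⟨a⟩) :=
  ⟨Subtype.val_injective, fun v => ⟨⟨v, mem_trZ.2 (Or.inl ha)⟩, rfl⟩⟩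

theorem trc_iso (n : ℤ) (M : GA I) : (tors I).isoModSerre (trcι n M) :=
  (iso_iff _).2 ⟨n, trc_bij n M⟩

variable {𝒞 : Type u} [Category.{v} 𝒞] (π : GA I ⥤ 𝒞) [π.IsLocalization (tors I).isoModSerre]

theorem isIso_of_large {M N : GA I} (f : M ⟶ N) (n : ℤ)
    (h : ∀ a ≥ n, Function.Bijective (f.hom.app ⟨a⟩)) : IsIso (π.map f) :=
  Localization.inverts π (tors I).isoModSerre f ((iso_iff f).2 ⟨n, h⟩)

theorem map_eq_of_large {M N : GA I} {f g : M ⟶ N} (n : ℤ)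
    (h : ∀ a ≥ n, ∀ x, f.hom.app ⟨a⟩ x = g.hom.app ⟨a⟩ x) : π.map f = π.map g := by
  refine (MorphismProperty.map_eq_iff_precomp π (tors I).isoModSerre _ _).2
    ⟨_, trcι n M, trc_iso n M, ObjectProperty.hom_ext _ ?_⟩
  ext ⟨a⟩ ⟨x, hx⟩
  change f.hom.app ⟨a⟩ x = g.hom.app ⟨a⟩ x
  rcases mem_trZ.1 hx with ha | rfl
  · exact h a ha x
  · rw [map_zero, map_zero]

/-- **`Hom(M~, N~) = Hom(M, N)`** if `M` starts where `N` is regular. -/
theorem pi_bij {m : ℤ} {M N : GA I} (hM : Low m M.obj) (hN : Reg m N.obj) :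
    Function.Bijective fun f : M ⟶ N => π.map f := by
  constructor
  · intro f g hfg
    obtain ⟨L, s, hs, h⟩ := (MorphismProperty.map_eq_iff_precomp π (tors I).isoModSerre f g).1 hfg
    obtain ⟨n, hn⟩ := (iso_iff s).1 hs
    refine ObjectProperty.hom_ext _ (hN.hom_ext hM n fun b hb x => ?_)
    obtain ⟨u, rfl⟩ := (hn b hb).2 x
    exact congrArg (fun t : L ⟶ N => t.hom.app ⟨b⟩ u) h
  · intro φ
    obtain ⟨ψ, hψ⟩ := Localization.exists_rightFraction π (tors I).isoModSerre φ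
    obtain ⟨n, hn⟩ := (iso_iff ψ.s).1 ψ.hs
    have key : ∀ b : ℤ, ∃ g : M.obj.obj ⟨b⟩ →ₗ[ℂ] N.obj.obj ⟨b⟩, n ≤ b →
        ∀ u, g (ψ.s.hom.app ⟨b⟩ u) = ψ.f.hom.app ⟨b⟩ u := fun b => by
      by_cases hb : n ≤ b
      · refine ⟨(ψ.f.hom.app ⟨b⟩).hom ∘ₗ
          (LinearEquiv.ofBijective (ψ.s.hom.app ⟨b⟩).hom (hn b hb)).symm.toLinearMap,
          fun _ u => congrArg (ψ.f.hom.app ⟨b⟩).hom ?_⟩
        exact (LinearEquiv.ofBijective (ψ.s.hom.app ⟨b⟩).hom (hn b hb)).symm_apply_apply u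
      · exact ⟨0, fun h => absurd h hb⟩
    choose g hg using key
    obtain ⟨h, hh⟩ := hN.ext_hom hM n g fun b c f x hb => by
      obtain ⟨u, rfl⟩ := (hn b hb).2 x
      rcases lt_or_ge c b with hc | hc
      · have z (P : GrS ν) : act P f b c = 0 := by
          rw [act_eq]
          exact Finset.sum_eq_zero fun t _ => by rw [mon_of_ne P t (by lia), smul_zero]
        rw [z, z]
        exact map_zero (g c)
      rw [hg b hb, ← act_natural_apply, hg c (hb.trans hc), act_natural_apply]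
    refine ⟨ObjectProperty.homMk h, ?_⟩
    have := Localization.inverts π (tors I).isoModSerre ψ.s ψ.hs
    change π.map _ = φ
    rw [hψ, ← cancel_epi (π.map ψ.s), MorphismProperty.RightFraction.map_s_comp_map,
      ← Functor.map_comp]
    exact map_eq_of_large π n fun a ha x => (hh a ha _).trans (hg a ha x)

end Vale.Agent.P287T.Sv
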