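import Vale.Agent.P287T.Sv.Mat
import Vale.Agent.P287Z.O.H335.Kos2

/-!
# The Koszul complex of line bundles
-/

set_option linter.unusedSectionVars false

open CategoryTheory Limits MvPolynomial Abelian

universe w v u

namespace Vale.Agent.P287T.Sv

open Vale.Agent.P294.V Vale.Agent.P287Z.Gr Vale.Agent.P287Z.O.H335

variable {ν : ℕ}

/-- the degrees of the generators of `K_j` -/
def kq (a : ℤ) (j : ℕ) (J : Finset (Fin ν)) : ℤ := if J.card = j then 2 * (a + j) else 1

/-- the Koszul matrix `K_{j+1} → K_j` -/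
noncomputable def kd (j : ℕ) : Matrix (Finset (Fin ν)) (Finset (Fin ν)) (Sn ν) :=
  fun J L => if J.card = j then ∑ i ∈ Jᶜ, if insert i J = L then sg i J • X i else 0 else 0

theorem hg_zsmul {n : ℤ} {f : Sn ν} (hf : Hg n f) (c : ℤ) : Hg n (c • f) :=
  (weightedHomogeneousSubmodule ℂ _ _).toAddSubgroup.zsmul_mem hf c

theorem kd_hg (a : ℤ) (j : ℕ) : HgM (kq a (j + 1)) (kq a j) (kd (ν := ν) j) := by
  intro J L
  by_cases hJ : J.card = j
  · rw [kd, if_pos hJ]
    refine hga_sum _ fun i hi => ?_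
    split_ifs with h
    · have hL : L.card = j + 1 := by
        rw [← h, Finset.card_insert_of_notMem (by simpa using hi), hJ]
      rw [kq, kq, if_pos hL, if_pos hJ,
        show 2 * (a + ((j + 1 : ℕ) : ℤ)) - 2 * (a + (j : ℤ)) = 2 by push_cast; ring]
      exact hg_zsmul (hga_X i) _
    · exact hga_zero _
  · rw [kd, if_neg hJ]
    exact hga_zero _

theorem kd_mulVec (j : ℕ) (v : Finset (Fin ν) → Sn ν) (J : Finset (Fin ν)) :
    (kd j).mulVec v J = if J.card = j then io (mu (xs (Fin ν))) v J else 0 := by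
  rw [Matrix.mulVec, dotProduct]
  by_cases hJ : J.card = j
  · rw [if_pos hJ]
    simp only [kd, if_pos hJ]
    rw [io]
    simp only [Finset.sum_mul]
    rw [Finset.sum_comm]
    refine Finset.sum_congr rfl fun i _ => ?_
    rw [Finset.sum_eq_single (insert i J)]
    · rw [if_pos rfl, smul_mul_assoc, mu_apply]
    · intro L _ hL
      rw [if_neg (fun h => hL h.symm), zero_mul]
    · intro h
      exact absurd (Finset.mem_univ _) h
  · rw [if_neg hJ]
    simp only [kd, if_neg hJ, zero_mul, Finset.sum_const_zero]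

theorem kd_eq (j : ℕ) (J : Finset (Fin ν)) {L : Finset (Fin ν)} (hL : L.card = j + 1) :
    kd j J L = ∑ i ∈ L, if L.erase i = J then sg i L • X i else 0 := by
  rw [kd]
  split_ifs with hJ
  · rw [← Finset.sum_filter, ← Finset.sum_filter]
    refine Finset.sum_congr ?_ fun i hi => ?_
    · ext i
      simp only [Finset.mem_filter, Finset.mem_compl]
      constructor
      · rintro ⟨h, rfl⟩; exact ⟨Finset.mem_insert_self _ _, Finset.erase_insert h⟩
      · rintro ⟨h, rfl⟩; exact ⟨Finset.notMem_erase _ _, Finset.insert_erase h⟩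
    · rw [← (Finset.mem_filter.1 hi).2, sg_erase_self]
  · refine (Finset.sum_eq_zero fun i hi => if_neg ?_).symm
    rintro rfl
    exact hJ (by rw [Finset.card_erase_of_mem hi, hL]; rfl)

theorem kq_odd {a b : ℤ} {j : ℕ} {J : Finset (Fin ν)} (hJ : J.card ≠ j) {f : Sn ν}
    (h : Hg (2 * b - kq a j J) f) : f = 0 := by
  rw [kq, if_neg hJ] at h
  exact hga_odd_eq_zero h fun ⟨k, hk⟩ => by lia

theorem kq_even {a : ℤ} {j : ℕ} {J : Finset (Fin ν)} (h : kq a j J = 2 * (kq a j J / 2)) :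
    J.card = j := by
  by_contra hJ
  rw [kq, if_neg hJ] at h
  lia

theorem kq_ge {m a : ℤ} (h : m ≤ a) (j : ℕ) (J : Finset (Fin ν)) (hJ : Even (kq a j J)) :
    2 * m ≤ kq a j J := by
  rw [kq] at hJ ⊢
  split_ifs at hJ ⊢
  · lia
  · exact absurd hJ (by decide)

theorem act_kd (N : GrS ν) (j : ℕ) {L : Finset (Fin ν)} (hL : L.card = j + 1)
    (d : Finset (Fin ν) → ℤ) (c : ℤ) (x : ∀ J, N.obj ⟨d J⟩) :
    ∑ J, act N (kd j J L) (d J) c (x J) =
      ∑ i ∈ L, sg i L • act N (X i) (d (L.erase i)) c (x (L.erase i)) := by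
  simp only [kd_eq j _ hL, act_sum_apply]
  rw [Finset.sum_comm]
  refine Finset.sum_congr rfl fun i _ => ?_
  rw [Finset.sum_eq_single (L.erase i), if_pos rfl, act_apply, act_apply, map_zsmul]
  · intro J _ hJ; rw [if_neg hJ.symm, act_zero_apply]
  · simp

variable (I : Ideal (Sn ν)) [FrOK I]

/-- `K_j`, a sum of copies of `B(- a - j)` -/
noncomputable def Kz (a : ℤ) (j : ℕ) : GA I := FrA I (kq (ν := ν) a j)

/-- the differential -/
noncomputable def Kd (a : ℤ) (j : ℕ) : Kz I a (j + 1) ⟶ Kz I a j := matA I (kd j) (kd_hg a j)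

variable {I}

theorem Kd_mk (a : ℤ) (j : ℕ) {b : ℤ} (v : Finset (Fin ν) → Sn ν)
    (h : ∀ J, Hg (2 * b - kq a (j + 1) J) (v J)) :
    (Kd I a j).hom.app ⟨b⟩ (FrO.mk I v h) =
      FrO.mk I ((kd j).mulVec v) ((kd_hg a j).mulVec h) := rfl

theorem Kd_Kd (a : ℤ) (j : ℕ) : Kd I a (j + 1) ≫ Kd I a j = 0 := by
  apply ObjectProperty.hom_ext
  ext b x
  obtain ⟨v, hv, rfl⟩ := FrO.mk_surj I x
  change FrO.mk I ((kd j).mulVec ((kd (j + 1)).mulVec v))
    ((kd_hg a j).mulVec ((kd_hg a (j + 1)).mulVec hv)) = (0 : (FrO I (kq a j)).obj ⟨b.deg⟩)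
  rw [FrO.mk_eq_zero]
  intro J
  rw [kd_mulVec]
  split_ifs with hJ
  · have h1 : io (mu (xs (Fin ν))) ((kd (j + 1)).mulVec v) J =
        io (mu (xs (Fin ν))) (io (mu (xs (Fin ν))) v) J := by
      refine Finset.sum_congr rfl fun i hi => ?_
      have hi' : i ∉ J := by simpa using hi
      rw [kd_mulVec, if_pos (by rw [Finset.card_insert_of_notMem hi', hJ])]
    rw [h1, io_io _ fun i k x => by simp only [mu_apply]; ring]
    exact zero_mem _
  · exact zero_mem _

theorem ep_dl (i : Fin ν) (v : Finset (Fin ν) → Sn ν) (J : Finset (Fin ν)) :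
    ep (dl _ i) v J = if i ∈ J then sg i J • v (J.erase i) else 0 := by
  rw [ep]
  split_ifs with h
  · rw [Finset.sum_eq_single i, dl, if_pos rfl, AddMonoidHom.id_apply]
    · intro k _ hk; rw [dl, if_neg hk, AddMonoidHom.zero_apply, smul_zero]
    · exact fun h' => absurd h h'
  · refine Finset.sum_eq_zero fun k hk => ?_
    rw [dl, if_neg (by rintro rfl; exact h hk), AddMonoidHom.zero_apply, smul_zero]

theorem K_ex (a : ℤ) (j : ℕ) {b c : ℤ} (hbc : b + 1 = c) (i : Fin ν) (v : Finset (Fin ν) → Sn ν)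
    (hv : ∀ J, Hg (2 * b - kq a j J) (v J)) (h : ∀ J, io (mu (xs (Fin ν))) v J ∈ I) :
    ∃ x : (Kz I a (j + 1)).obj.obj ⟨c⟩,
      (Kd I a j).hom.app ⟨c⟩ x = act (FrO I (kq a j)) (X i) b c (FrO.mk I v hv) := by
  have h1 : ∀ J, Hg (2 * c - kq a (j + 1) J) (ep (dl _ i) v J) := fun J => by
    rw [ep_dl]
    split_ifs with hi
    swap
    · exact hga_zero _
    have hc := Finset.card_erase_add_one hi
    by_cases hJ : J.card = j + 1
    · have := hv (J.erase i)
      rw [kq, if_pos (by lia)] at this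
      rw [kq, if_pos hJ, show 2 * c - 2 * (a + ((j + 1 : ℕ) : ℤ)) = 2 * b - 2 * (a + j) by
        push_cast; lia]
      exact hg_zsmul this _
    · rw [kq_odd (by lia) (hv (J.erase i)), smul_zero]; exact hga_zero _
  refine ⟨FrO.mk I _ h1, ?_⟩
  rw [Kd_mk, FrO.act_mk I (hg_X i hbc) hv fun J => hga_mul' (hga_X i) (hv J) (by lia)]
  refine (FrO.mk_eq I).2 fun J => ?_
  rw [kd_mulVec]
  split_ifs with hJ
  · have h2 := io_ep (mu (xs (Fin ν))) (dl _ i) (fun k l _ x => (dl_comm i l _ x).symm) v J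
    simp only [← dl_comm] at h2
    rw [sum_dl i J fun k => mu (xs (Fin ν)) k (v J), mu_apply] at h2
    rw [← h2, sub_add_cancel_left, ep_dl]
    split_ifs
    · exact neg_mem (zsmul_mem (h _) _)
    · simp
  · rw [kq_odd hJ (hv J)]; simp

theorem io_low {a b : ℤ} {j : ℕ} {v : Finset (Fin ν) → Sn ν}
    (hv : ∀ J, Hg (2 * b - kq a j J) (v J)) {J : Finset (Fin ν)} (hJ : J.card + 1 ≠ j) :
    io (mu (xs (Fin ν))) v J = 0 := by
  refine Finset.sum_eq_zero fun i hi => ?_
  have hi' : i ∉ J := by simpa using hi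
  rw [kq_odd (by rwa [Finset.card_insert_of_notMem hi']) (hv (insert i J)), map_zero, smul_zero]

theorem stb_ker {M N : GrS ν} (f : M ⟶ N) : Stb M fun a => LinearMap.ker (f.app ⟨a⟩).hom :=
  fun _ _ m v hv => (NatTrans.naturality_apply f m v).trans (by
    rw [show f.app _ v = 0 from hv, map_zero])

variable {𝒞 : Type u} [Category.{v} 𝒞] [Abelian 𝒞] (π : GA I ⥤ 𝒞) [π.Additive]
  [π.IsLocalization (tors I).isoModSerre]

theorem K_exact (a : ℤ) (j : ℕ) :
    ((ShortComplex.mk (Kd I a (j + 1)) (Kd I a j) (Kd_Kd a j)).map π).Exact := by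
  obtain ⟨n, hn⟩ := gen_large (Kz I a (j + 1)).property.2 (stb_ker (Kd I a j).hom) 1
  refine coh_exact π _ n fun b hb y hy => ?_
  obtain ⟨w, hw, rfl⟩ := hn (b - 1) b (by simp) hb y hy
  refine Submodule.sum_mem (LinearMap.range ((Kd I a (j + 1)).hom.app ⟨b⟩).hom) fun i _ => ?_
  obtain ⟨v, hv, e⟩ := FrO.mk_surj I (w i)
  have h0 := hw i
  rw [← e] at h0 ⊢
  rw [pow_one]
  refine K_ex a (j + 1) (by simp) i v hv fun J => ?_
  have h2 := (FrO.mk_eq_zero I).1 ((Kd_mk a j v hv).symm.trans h0) J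
  rw [kd_mulVec] at h2
  split_ifs at h2 with hJ
  · exact h2
  · rw [io_low hv (by lia)]; exact zero_mem _

theorem K_epi (a : ℤ) : Epi (π.map (Kd I a 0)) := by
  obtain ⟨n, hn⟩ := gen_top (Kz I a 0).property.2 1
  refine (coh_epi_iff π _).2 ⟨n, fun b hb y => ?_⟩
  obtain ⟨w, rfl⟩ := hn (b - 1) b (by simp) hb y
  refine Submodule.sum_mem (LinearMap.range ((Kd I a 0).hom.app ⟨b⟩).hom) fun i _ => ?_
  obtain ⟨v, hv, e⟩ := FrO.mk_surj I (w i)
  rw [← e, pow_one]
  exact K_ex a 0 (by simp) i v hv fun J => by rw [io_low hv (by lia)]; exact zero_mem _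

omit [FrOK I] in
theorem app_mk {ι : Type} [Fintype ι] {q : ι → ℤ} {N : GrS ν} (φ : FrO I q ⟶ N) {a : ℤ}
    (v : ι → Sn ν) (h : ∀ i, Hg (2 * a - q i) (v i)) :
    φ.app ⟨a⟩ (FrO.mk I v h) = ∑ i, act N (v i) (q i / 2) a (φ.app _ (gen I q i)) := by
  rw [FrO.mk_eq_sum I h, map_sum]
  exact Finset.sum_congr rfl fun i _ => act_natural_apply _ _ _ _ _

theorem Kd_gen {N : GA I} (a : ℤ) (j : ℕ) (φ : Kz I a j ⟶ N) {L : Finset (Fin ν)}
    (hL : L.card = j + 1) (F : Finset (Fin ν) → N.obj.obj ⟨a + j⟩)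
    (hF : ∀ J, J.card = j → φ.hom.app _ (gen I (kq a j) J) = act N.obj 1 _ _ (F J)) :
    (Kd I a j ≫ φ).hom.app _ (gen I (kq a (j + 1)) L) = epN N.obj (a + j) _ F L := by
  have h1 : kq a (j + 1) L = 2 * (kq a (j + 1) L / 2) := by rw [kq, if_pos hL]; lia
  refine (congrArg (φ.hom.app _) (matO_gen I _ (kd_hg a j) L h1)).trans ?_
  refine (app_mk φ.hom _ _).trans ((act_kd _ j hL _ _ _).trans ?_)
  refine Finset.sum_congr rfl fun i hi => ?_
  have h2 : (L.erase i).card = j := by have := Finset.card_erase_add_one hi; lia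
  refine (congrArg (fun t => sg i L • act N.obj (X i) _ _ t) (hF _ h2)).trans ?_
  dsimp only
  rw [← act_mul_apply _ (by
    rw [kq, if_pos h2, show 2 * (2 * (a + j) / 2 - (a + j)) = 0 by lia]; exact hga_one), one_mul]

/-- `Hom(K, N)` is exact -/
theorem hom_ex {m : ℤ} {N : GA I} (hN : Reg m N.obj) {a : ℤ} (ha : m ≤ a) (j : ℕ)
    (φ : Kz I a (j + 1) ⟶ N) (h : Kd I a (j + 1) ≫ φ = 0) :
    ∃ ψ : Kz I a j ⟶ N, Kd I a j ≫ ψ = φ := by
  let F : Finset (Fin ν) → N.obj.obj ⟨a + (j + 1 : ℕ)⟩ := fun J =>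
    if J.card = j + 1 then act N.obj 1 _ _ (φ.hom.app _ (gen I (kq a (j + 1)) J)) else 0
  have hF : ∀ J, J.card = j + 1 →
      φ.hom.app _ (gen I (kq a (j + 1)) J) = act N.obj 1 _ _ (F J) := fun J hJ => by
    simp only [F, if_pos hJ]
    rw [act_mul_apply' _ _ (by
      rw [kq, if_pos hJ, show 2 * (2 * (a + (j + 1 : ℕ)) / 2 - (a + (j + 1 : ℕ))) = 0 by lia]
      exact hga_one), one_mul, act_one_apply]
  obtain ⟨g, -, hg⟩ := hN.supp (a := a + j) (by push_cast; ring) (by lia) j F (fun c L => by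
    by_cases hL : L.card = j + 1 + 1
    · by_cases hc : c = kq a (j + 1 + 1) L / 2
      · rw [hc, ← Kd_gen a (j + 1) φ hL F hF, h]; rfl
      · refine Finset.sum_eq_zero fun i _ => ?_
        rw [kq, if_pos hL] at hc
        rw [act_eq_zero_of_hg N.obj (hga_X i) (by push_cast at hc ⊢; lia)]
        simp
    · refine Finset.sum_eq_zero fun i hi => ?_
      have := Finset.card_erase_add_one hi
      simp only [F, if_neg (show (L.erase i).card ≠ j + 1 by lia), map_zero, smul_zero])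
    fun J hJ => if_neg hJ
  refine ⟨ObjectProperty.homMk (desc N.property.1 fun J => act N.obj 1 _ _ (g J)),
    ObjectProperty.hom_ext _ (FrO.hom_ext I fun L hL => ?_)⟩
  have hL' := kq_even hL
  refine (Kd_gen a j _ hL' g fun J hJ => desc_gen _ _ J (by rw [kq, if_pos hJ]; lia)).trans ?_
  refine Eq.trans ?_ (hF L hL').symm
  rw [← hg L, epN, epN, map_sum]
  refine Finset.sum_congr rfl fun i _ => ?_
  rw [map_zsmul, ← act_mul_apply _ (hg_X i (by push_cast; ring)), mul_one]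

end Vale.Agent.P287T.Sv
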