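import Vale.Agent.P287T.Sv.Hom
import Vale.Agent.P287Z.O.H409.Eff

/-!
# Free modules: summands, multiplication maps, `Ext` classes (port of the hypersurface case)
-/

set_option linter.unusedSectionVars false

open CategoryTheory Limits MvPolynomial Abelian

universe w v u

namespace Vale.Agent.P287T.Sv

open Vale.Agent.P294.V Vale.Agent.P287Z.Gr

variable {ν : ℕ} {I : Ideal (Sn ν)} [FrOK I]

variable (I) in
/-- `A(-d/2)` -/
noncomputable def O1 (d : ℤ) : GA I := FrA I (fun _ : Unit => d)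

section mats

variable {ι κ : Type} [Fintype ι] [Fintype κ] {q : ι → ℤ} {q' : κ → ℤ}

theorem matA_congr {f g : Matrix κ ι (Sn ν)} (hf : HgM q q' f) (hg : HgM q q' g)
    (h : f = g) : matA I f hf = matA I g hg := by
  subst h; rfl

theorem matA_one [DecidableEq ι] (h : HgM q q (1 : Matrix ι ι (Sn ν))) :
    matA I 1 h = 𝟙 (FrA I q) := by
  apply ObjectProperty.hom_ext
  refine FrO.hom_ext I fun i hi => ?_
  change (matO I 1 h).app _ (gen I q i) = gen I q i
  rw [matO_gen I 1 h i hi, gen, dif_pos hi]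
  refine FrO.mk_congr I (funext fun k => ?_)
  rw [Matrix.one_apply]
  unfold Pi.single Function.update
  by_cases hk : k = i
  · rw [if_pos hk, dif_pos hk]
    subst hk
    rfl
  · rw [if_neg hk, dif_neg hk]
    rfl

theorem matO_sum {τ : Type} (s : Finset τ) (f : τ → Matrix κ ι (Sn ν))
    (hf : ∀ t, HgM q q' (f t)) (h : HgM q q' (∑ t ∈ s, f t)) :
    ∑ t ∈ s, matO I (f t) (hf t) = matO I (∑ t ∈ s, f t) h := by
  classical
  refine FrO.hom_ext I fun i hi => ?_
  have h5 : (∑ t ∈ s, matO I (f t) (hf t)).app ⟨q i / 2⟩ =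
      ∑ t ∈ s, (matO I (f t) (hf t)).app ⟨q i / 2⟩ := by
    simp [NatTrans.app_sum]
  rw [h5, sum_hom_apply, matO_gen I _ h i hi,
    Finset.sum_congr rfl fun t _ => matO_gen I (f t) (hf t) i hi]
  have h6 := FrO.mk_sum I s (fun t k => f t k i) (a := q i / 2) (q := q') (fun t k => by
    rw [← hi]; exact hf t k i) (fun k => by
    have := h k i
    rw [Matrix.sum_apply] at this
    rw [← hi]
    exact this)
  rw [← h6]
  exact FrO.mk_congr I (funext fun k => (Matrix.sum_apply k i s f).symm)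

theorem matA_sum {τ : Type} (s : Finset τ) (f : τ → Matrix κ ι (Sn ν))
    (hf : ∀ t, HgM q q' (f t)) (h : HgM q q' (∑ t ∈ s, f t)) :
    ∑ t ∈ s, matA I (f t) (hf t) = matA I (∑ t ∈ s, f t) h := by
  apply ObjectProperty.hom_ext
  have h4 : (∑ t ∈ s, matA I (f t) (hf t)).hom = ∑ t ∈ s, (matA I (f t) (hf t)).hom :=
    (grA I).ι.map_sum _ _
  rw [h4]
  exact matO_sum s f hf h

end mats

/-- multiplication by a homogeneous polynomial -/
noncomputable def pm {d d' : ℤ} (p : Sn ν) (hp : Hg (d - d') p) :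
    O1 I d ⟶ O1 I d' :=
  matA I (Matrix.of fun _ _ => p) (fun _ _ => hp)

theorem pm_comp {d d' d'' : ℤ} (p q : Sn ν) (hp : Hg (d - d') p)
    (hq : Hg (d' - d'') q) (hpq : Hg (d - d'') (q * p)) :
    pm (I := I) p hp ≫ pm q hq = pm (q * p) hpq := by
  refine (matA_comp I _ _ _ _).trans (matA_congr _ _ ?_)
  ext i j
  simp [Matrix.mul_apply]

theorem pm_one (d : ℤ) (h : Hg (d - d) (1 : Sn ν)) :
    pm (I := I) (d := d) 1 h = 𝟙 _ := by
  have h1 : HgM (fun _ : Unit => d) (fun _ : Unit => d)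
      (1 : Matrix Unit Unit (Sn ν)) := fun i j => by
    rw [Matrix.one_apply_eq]; exact h
  refine (matA_congr _ h1 ?_).trans (matA_one h1)
  ext i j
  simp

section pieces

variable {ι : Type} [Fintype ι] [DecidableEq ι] (q : ι → ℤ)

/-- the column of the inclusion of a summand -/
noncomputable def incM (i : ι) : Matrix ι Unit (Sn ν) :=
  Matrix.of fun k _ => if k = i then 1 else 0

/-- the row of the projection to a summand -/
noncomputable def prjM (i : ι) : Matrix Unit ι (Sn ν) :=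
  Matrix.of fun _ k => if k = i then 1 else 0

theorem incM_hg (i : ι) : HgM (fun _ : Unit => q i) q (incM (ν := ν) i) := by
  intro k _
  rw [incM, Matrix.of_apply]
  split_ifs with h
  · rw [h, sub_self]
    exact isWeightedHomogeneous_one _ _
  · exact isWeightedHomogeneous_zero _ _ _

theorem prjM_hg (i : ι) : HgM q (fun _ : Unit => q i) (prjM (ν := ν) i) := by
  intro _ k
  rw [prjM, Matrix.of_apply]
  split_ifs with h
  · rw [h, sub_self]
    exact isWeightedHomogeneous_one _ _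
  · exact isWeightedHomogeneous_zero _ _ _

/-- inclusion of a summand -/
noncomputable def inc (i : ι) : O1 I (q i) ⟶ FrA I q := matA I (incM i) (incM_hg q i)

/-- projection to a summand -/
noncomputable def prj (i : ι) : FrA I q ⟶ O1 I (q i) := matA I (prjM i) (prjM_hg q i)

theorem inc_prj (i : ι) : inc (I := I) q i ≫ prj q i = 𝟙 _ := by
  have h1 : HgM (fun _ : Unit => q i) (fun _ : Unit => q i)
      (1 : Matrix Unit Unit (Sn ν)) := fun _ _ => by
    rw [Matrix.one_apply_eq, sub_self]; exact isWeightedHomogeneous_one _ _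
  refine (matA_comp I _ _ _ _).trans ((matA_congr _ h1 ?_).trans (matA_one h1))
  ext a b
  simp [Matrix.mul_apply, incM, prjM]

theorem one_hg : HgM q q (1 : Matrix ι ι (Sn ν)) := by
  intro a b
  rw [Matrix.one_apply]
  split_ifs with h
  · rw [h, sub_self]; exact isWeightedHomogeneous_one _ _
  · exact isWeightedHomogeneous_zero _ _ _

theorem sum_incM_prjM :
    ∑ i : ι, incM (ν := ν) i * prjM (ν := ν) i = (1 : Matrix ι ι (Sn ν)) := by
  refine Matrix.ext fun a b => ?_
  rw [Matrix.sum_apply, Finset.sum_eq_single a]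
  · rw [Matrix.mul_apply]
    by_cases h : a = b
    · subst h
      simp [incM, prjM]
    · simp [incM, prjM, h, Ne.symm h]
  · intro i _ hi
    rw [Matrix.mul_apply]
    simp [incM, prjM, hi.symm]
  · intro h
    exact absurd (Finset.mem_univ _) h

theorem sum_prj_inc : ∑ i, prj (I := I) q i ≫ inc q i = 𝟙 _ := by
  have h1 : ∀ i, prj (I := I) q i ≫ inc q i = matA I (incM i * prjM i)
      ((prjM_hg q i).mul (incM_hg q i)) := fun i => matA_comp I _ _ _ _
  rw [Finset.sum_congr rfl fun i _ => h1 i]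
  refine (matA_sum _ _ _ ?_).trans ((matA_congr _ (one_hg q) ?_).trans (matA_one _))
  · rw [sum_incM_prjM]; exact one_hg q
  · exact sum_incM_prjM

end pieces


theorem free_proj {ι : Type} [Fintype ι] {q : ι → ℤ} {M N : GA I} (f : FrA I q ⟶ N) (p : M ⟶ N)
    (h : ∀ i, q i = 2 * (q i / 2) → ∃ x, p.hom.app ⟨q i / 2⟩ x = f.hom.app _ (gen I q i)) :
    ∃ g : FrA I q ⟶ M, g ≫ p = f := by
  have h' : ∀ i, ∃ x, q i = 2 * (q i / 2) → p.hom.app ⟨q i / 2⟩ x = f.hom.app _ (gen I q i) :=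
    fun i => by
      by_cases hi : q i = 2 * (q i / 2)
      · exact (h i hi).imp fun _ k _ => k
      · exact ⟨0, fun k => absurd k hi⟩
  choose x hx using h'
  refine ⟨ObjectProperty.homMk (desc M.property.1 x),
    ObjectProperty.hom_ext _ (FrO.hom_ext I fun i hi => ?_)⟩
  exact (congrArg (p.hom.app ⟨q i / 2⟩) (desc_gen M.property.1 x i hi)).trans (hx i hi)

variable {𝒞 : Type u} [Category.{v} 𝒞] [Abelian 𝒞] [HasExt.{w} 𝒞] (π : GA I ⥤ 𝒞) [π.Additive]

/-- precomposition with `π f` -/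
noncomputable def pre {X Y : GA I} (f : X ⟶ Y) {N : 𝒞} {n : ℕ} (α : Ext (π.obj Y) N n) :
    Ext (π.obj X) N n :=
  (Ext.mk₀ (π.map f)).comp α (zero_add n)

variable {N : 𝒞} {n : ℕ}

theorem pre_def {X Y : GA I} (f : X ⟶ Y) (α : Ext (π.obj Y) N n) :
    pre π f α = (Ext.mk₀ (π.map f)).comp α (zero_add n) := rfl

theorem pre_comp {X Y Z : GA I} (f : X ⟶ Y) (g : Y ⟶ Z) (α : Ext (π.obj Z) N n) :
    pre π (f ≫ g) α = pre π f (pre π g α) := by
  rw [pre_def, pre_def, pre_def, Functor.map_comp, ← Ext.mk₀_comp_mk₀,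
    Ext.comp_assoc_of_second_deg_zero]

theorem pre_id {X : GA I} (α : Ext (π.obj X) N n) : pre π (𝟙 X) α = α := by
  rw [pre_def, CategoryTheory.Functor.map_id, Ext.mk₀_id_comp]

theorem pre_zero {X Y : GA I} (f : X ⟶ Y) : pre π f (0 : Ext (π.obj Y) N n) = 0 := by
  rw [pre_def, Ext.comp_zero]

theorem zero_pre {X Y : GA I} (α : Ext (π.obj Y) N n) : pre π (0 : X ⟶ Y) α = 0 := by
  rw [pre_def, Functor.map_zero, Ext.mk₀_zero, Ext.zero_comp]

theorem add_pre {X Y : GA I} (f g : X ⟶ Y) (α : Ext (π.obj Y) N n) :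
    pre π (f + g) α = pre π f α + pre π g α := by
  rw [pre_def, pre_def, pre_def, Functor.map_add, Ext.mk₀_add, Ext.add_comp]

theorem pre_sum {X Y : GA I} {τ : Type} (s : Finset τ) (f : τ → (X ⟶ Y))
    (α : Ext (π.obj Y) N n) : pre π (∑ t ∈ s, f t) α = ∑ t ∈ s, pre π (f t) α := by
  classical
  induction s using Finset.induction_on with
  | empty => rw [Finset.sum_empty, Finset.sum_empty, zero_pre]
  | insert t s ht ih => rw [Finset.sum_insert ht, Finset.sum_insert ht, ← ih, add_pre]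

theorem ext_pieces {ι : Type} [Fintype ι] [DecidableEq ι] (q : ι → ℤ)
    (α : Ext (π.obj (FrA I q)) N n) (h : ∀ i, pre π (inc q i) α = 0) : α = 0 := by
  rw [← pre_id π α, ← sum_prj_inc q, pre_sum]
  refine Finset.sum_eq_zero fun i _ => ?_
  rw [pre_comp, h i, pre_zero]

theorem O1_odd {d : ℤ} (hd : ¬ Even d) : 𝟙 (O1 I d) = 0 := by
  apply ObjectProperty.hom_ext
  refine FrO.hom_ext I fun i hi => ?_
  exfalso
  apply hd
  rw [hi]
  exact even_two_mul _

theorem ext_odd {d : ℤ} (hd : ¬ Even d) (α : Ext (π.obj (O1 I d)) N n) : α = 0 := by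
  rw [← pre_id π α, O1_odd hd, zero_pre]

variable [π.IsLocalization (tors I).isoModSerre]

omit [FrOK I] [HasExt.{w} 𝒞] in
theorem coh_exact (S : ShortComplex (GA I)) (n : ℤ)
    (h : ∀ b ≥ n, ∀ y : S.X₂.obj.obj ⟨b⟩, S.g.hom.app ⟨b⟩ y = 0 →
      ∃ x : S.X₁.obj.obj ⟨b⟩, S.f.hom.app ⟨b⟩ x = y) : (S.map π).Exact := by
  have := ObjectProperty.SerreClassLocalization.preservesFiniteLimits π (tors I)
  have := ObjectProperty.SerreClassLocalization.preservesFiniteColimits π (tors I)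
  rw [ShortComplex.exact_iff_isZero_homology]
  have h1 : IsZero (π.obj S.homology) := by
    rw [ObjectProperty.SerreClassLocalization.isZero_obj_iff π (tors I)]
    refine ⟨n, fun a ha => ?_⟩
    have h2 : ((S.map (grA I).ι).map ((evaluation (Dg ν) (ModuleCat.{0} ℂ)).obj ⟨a⟩)).Exact :=
      (ShortComplex.moduleCat_exact_iff _).2 (h a ha)
    rw [ShortComplex.exact_iff_isZero_homology] at h2
    have h3 : IsZero (((grA I).ι.obj S.homology).obj ⟨a⟩) := by
      refine h2.of_iso ?_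
      exact (((evaluation (Dg ν) (ModuleCat.{0} ℂ)).obj ⟨a⟩).mapIso
        (S.mapHomologyIso (grA I).ι)).symm ≪≫
          ((S.map (grA I).ι).mapHomologyIso
            ((evaluation (Dg ν) (ModuleCat.{0} ℂ)).obj ⟨a⟩)).symm
    exact ModuleCat.subsingleton_of_isZero h3
  exact h1.of_iso (S.mapHomologyIso π)

omit [FrOK I] [HasExt.{w} 𝒞] in
theorem coh_epi_iff {M N : GA I} (f : M ⟶ N) : Epi (π.map f) ↔
    ∃ n : ℤ, ∀ a ≥ n, Function.Surjective (f.hom.app ⟨a⟩) :=
  (ObjectProperty.SerreClassLocalization.epi_map_iff π (tors I) f).trans (epi_iff I f)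

omit [FrOK I] [HasExt.{w} 𝒞] in
theorem coh_mono_iff {M N : GA I} (f : M ⟶ N) : Mono (π.map f) ↔
    ∃ n : ℤ, ∀ a ≥ n, Function.Injective (f.hom.app ⟨a⟩) :=
  (ObjectProperty.SerreClassLocalization.mono_map_iff π (tors I) f).trans (mono_iff I f)

/-- **effaceability**: a class of positive degree dies on free modules generated in large degrees -/
theorem eff {M : GA I} (α : Ext (π.obj M) N (n + 1)) : ∃ n₀ : ℤ, ∀ {ι : Type} [Fintype ι]
    (q : ι → ℤ), (∀ i, q i = 2 * (q i / 2) → n₀ ≤ q i / 2) → ∀ f : FrA I q ⟶ M, pre π f α = 0 := by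
  obtain ⟨M', p, hp, hα⟩ := P287Z.O.H409.efface α
  have hL := Localization.essSurj π (tors I).isoModSerre
  let e' : π.obj (π.objPreimage M') ≅ M' := π.objObjPreimageIso M'
  obtain ⟨ψ, hψ⟩ := Localization.exists_rightFraction π (tors I).isoModSerre
    (Y := M) (e'.hom ≫ p)
  have h1 : π.map ψ.s ≫ e'.hom ≫ p = π.map ψ.f := by
    rw [hψ, MorphismProperty.RightFraction.map_s_comp_map]
  have := Localization.inverts π (tors I).isoModSerre ψ.s ψ.hs
  have h2 : Epi (π.map ψ.f) := by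
    rw [← h1]
    infer_instance
  obtain ⟨b0, hb0⟩ := (coh_epi_iff π ψ.f).1 h2
  refine ⟨b0, fun q hq f => ?_⟩
  obtain ⟨h, h3⟩ := free_proj f ψ.f fun i hi => hb0 _ (hq i hi) _
  have h4 : pre π f α = (Ext.mk₀ (π.map h ≫ π.map ψ.s ≫ e'.hom)).comp
      ((Ext.mk₀ p).comp α (zero_add _)) (zero_add _) := by
    rw [pre_def, ← h3, Functor.map_comp, ← h1, ← Ext.comp_assoc_of_second_deg_zero,
      Ext.mk₀_comp_mk₀]
    simp only [Category.assoc]
  rw [h4, hα, Ext.comp_zero]

end Vale.Agent.P287T.Sv
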