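import Vale.Agent.P287T.Sv.Gen
import Vale.Agent.P287Z.O.H335.Kos

/-!
# Koszul regularity of graded modules
-/

open CategoryTheory Limits MvPolynomial

namespace Vale.Agent.P287T.Sv

open Vale.Agent.P294.V Vale.Agent.P287Z.Gr Vale.Agent.P287Z.O.H335

variable {ν : ℕ}

/-- the Koszul differential -/
noncomputable def epN (N : GrS ν) (a b : ℤ) (f : Finset (Fin ν) → N.obj ⟨a⟩) (J : Finset (Fin ν)) :
    N.obj ⟨b⟩ := ∑ i ∈ J, sg i J • act N (X i) a b (f (J.erase i))

/-- the Koszul complex is exact in the degrees `≥ m` -/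
def Reg (m : ℤ) (N : GrS ν) : Prop := ∀ a b : ℤ, a + 1 = b → m ≤ b →
  ∀ f : Finset (Fin ν) → N.obj ⟨b⟩, (∀ c J, epN N b c f J = 0) →
    ∃ g : Finset (Fin ν) → N.obj ⟨a⟩, ∀ J, epN N a b g J = f J

/-- contraction with a basis vector -/
def ctr {V : Type*} [AddCommGroup V] (i : Fin ν) (f : Finset (Fin ν) → V) (J : Finset (Fin ν)) :
    V := if i ∈ J then 0 else sg i J • f (insert i J)

/-- the operators `δ_{ik}` -/
def dl (V : Type*) [AddCommGroup V] (i k : Fin ν) : V →+ V := if k = i then AddMonoidHom.id V else 0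

theorem io_dl {V : Type*} [AddCommGroup V] (i : Fin ν) (f : Finset (Fin ν) → V)
    (J : Finset (Fin ν)) : io (dl V i) f J = ctr i f J := by
  rw [io, ctr]
  split_ifs with h
  · refine Finset.sum_eq_zero fun k hk => ?_
    rw [dl, if_neg (by rintro rfl; exact Finset.mem_compl.1 hk h), AddMonoidHom.zero_apply,
      smul_zero]
  · rw [Finset.sum_eq_single i, dl, if_pos rfl, AddMonoidHom.id_apply]
    · intro k _ hk; rw [dl, if_neg hk, AddMonoidHom.zero_apply, smul_zero]
    · intro h'; exact absurd (Finset.mem_compl.2 h) h'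

theorem dl_comm {V : Type*} [AddCommGroup V] (i k : Fin ν) (t : V →+ V) (x : V) :
    dl V i k (t x) = t (dl V i k x) := by
  rw [dl]; split_ifs <;> simp

theorem sum_dl {V : Type*} [AddCommGroup V] (i : Fin ν) (J : Finset (Fin ν)) (u : Fin ν → V) :
    ∑ k ∈ Jᶜ, dl V i k (u k) + ∑ k ∈ J, dl V i k (u k) = u i := by
  rw [add_comm, Finset.sum_add_sum_compl, Finset.sum_eq_single i, dl, if_pos rfl,
    AddMonoidHom.id_apply]
  · intro k _ hk; rw [dl, if_neg hk, AddMonoidHom.zero_apply]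
  · simp

/-- the homotopy formula for abstract operators -/
theorem ctr_ep {V : Type*} [AddCommGroup V] (y : Fin ν → V →+ V) (i : Fin ν)
    (f : Finset (Fin ν) → V) (J : Finset (Fin ν)) :
    ctr i (ep y f) J + ep y (ctr i f) J = y i (f J) := by
  have h := io_ep (dl V i) y (fun j k _ x => dl_comm i j (y k) x) f J
  rw [io_dl, show io (dl V i) f = ctr i f from funext (io_dl i f)] at h
  rw [h, ← sum_dl i J fun k => y k (f J)]
  simp only [dl_comm]

theorem ctr_epN (N : GrS ν) (a b : ℤ) (i : Fin ν) (f : Finset (Fin ν) → N.obj ⟨a⟩)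
    (J : Finset (Fin ν)) :
    ctr i (epN N a b f) J + epN N a b (ctr i f) J = act N (X i) a b (f J) := by
  let y : Fin ν → (N.obj ⟨a⟩ × N.obj ⟨b⟩) →+ (N.obj ⟨a⟩ × N.obj ⟨b⟩) := fun k =>
    (AddMonoidHom.inr _ _).comp ((act N (X k) a b).hom.toAddMonoidHom.comp (AddMonoidHom.fst _ _))
  have e : ∀ (g : Finset (Fin ν) → N.obj ⟨a⟩ × N.obj ⟨b⟩) J,
      (ep y g J).2 = epN N a b (fun I => (g I).1) J := fun g J => by
    rw [ep, epN, Prod.snd_sum]; rfl
  have h := congrArg Prod.snd (ctr_ep y i (fun I => (f I, 0)) J)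
  rw [Prod.snd_add, e] at h
  have h1 : (fun I => (ctr i (fun I => ((f I, 0) : N.obj ⟨a⟩ × N.obj ⟨b⟩)) I).1) = ctr i f := by
    funext I; rw [ctr, ctr]; split_ifs <;> rfl
  have h2 : (ctr i (ep y fun I => (f I, 0)) J).2 = ctr i (epN N a b f) J := by
    rw [ctr, ctr]
    split_ifs
    · rfl
    · rw [Prod.smul_snd, e]
  rw [h1, h2] at h
  exact h

theorem epN_nat {M N : GrS ν} (φ : M ⟶ N) (a b : ℤ) (f : Finset (Fin ν) → M.obj ⟨a⟩)
    (J : Finset (Fin ν)) :
    epN N a b (fun I => φ.app ⟨a⟩ (f I)) J = φ.app ⟨b⟩ (epN M a b f J) := by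
  rw [epN, epN, map_sum]
  exact Finset.sum_congr rfl fun i _ => by rw [map_zsmul, act_natural_apply]

theorem epN_sum (N : GrS ν) (a b : ℤ) {T : Type*} (s : Finset T)
    (f : T → Finset (Fin ν) → N.obj ⟨a⟩) (J : Finset (Fin ν)) :
    epN N a b (fun I => ∑ t ∈ s, f t I) J = ∑ t ∈ s, epN N a b (f t) J := by
  simp only [epN, map_sum, Finset.smul_sum]
  exact Finset.sum_comm

theorem epN_act (N : GrS ν) {g : Sn ν} {a a' b : ℤ} (c : ℤ) (hg : Hg (2 * (b - a)) g)
    (h : a + 1 = a') (f : Finset (Fin ν) → N.obj ⟨a⟩) (J : Finset (Fin ν)) :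
    epN N b c (fun I => act N g a b (f I)) J = act N g a' c (epN N a a' f J) := by
  rw [epN, epN, map_sum]
  exact Finset.sum_congr rfl fun i _ => by rw [map_zsmul, act_comm N hg (hg_X i h)]

theorem epN_add (N : GrS ν) (a b : ℤ) (f g : Finset (Fin ν) → N.obj ⟨a⟩) (J : Finset (Fin ν)) :
    epN N a b (f + g) J = epN N a b f J + epN N a b g J := by
  simp only [epN, Pi.add_apply, map_add, smul_add, Finset.sum_add_distrib]

theorem epN_smul (N : GrS ν) (a b : ℤ) (t : ℂ) (f : Finset (Fin ν) → N.obj ⟨a⟩)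
    (J : Finset (Fin ν)) : epN N a b (t • f) J = t • epN N a b f J := by
  rw [epN, epN, Finset.smul_sum]
  exact Finset.sum_congr rfl fun i _ => by rw [Pi.smul_apply, map_smul, smul_comm]

theorem epN_zero (N : GrS ν) (a b : ℤ) (J : Finset (Fin ν)) : epN N a b 0 J = 0 := by
  simp [epN]

/-- the Koszul cocycles -/
noncomputable def Zk (N : GrS ν) (a : ℤ) :
    Submodule ℂ ((piG fun _ : Finset (Fin ν) => N).obj ⟨a⟩) where
  carrier := {f | ∀ c J, epN N a c f J = 0}
  zero_mem' c J := epN_zero N a c J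
  add_mem' {f g} hf hg c J := (epN_add N a c f g J).trans (by rw [hf, hg, add_zero])
  smul_mem' t f hf c J := (epN_smul N a c t f J).trans (by rw [hf, smul_zero])

theorem stb_Zk (N : GrS ν) : Stb _ (Zk N) := fun a b m v hv c J => by
  have : epN N b c ((piG fun _ : Finset (Fin ν) => N).map m v) J =
      epN N b c (fun I => act N (monomial m.1 1) a b (v I)) J :=
    congrArg (fun f => epN N b c f J) (funext fun I => map_eq_act N m (v I))
  refine this.trans ((epN_act N c (hg_mon m) rfl v J).trans ?_)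
  rw [hv, map_zero]

theorem reg_of_gen {N : GrS ν} {m : ℤ} (h : ∀ a b : ℤ, a + 1 = b → m ≤ b → ∀ z ∈ Zk N b,
    ∃ w : Fin ν → Finset (Fin ν) → N.obj ⟨a⟩, (∀ i, w i ∈ Zk N a) ∧
      ∀ J, z J = ∑ i, act N (X i) a b (w i J)) : Reg m N := fun a b hab hb f hf => by
  obtain ⟨w, hw, e⟩ := h a b hab hb f hf
  refine ⟨fun I => ∑ i, ctr i (w i) I, fun J => ?_⟩
  rw [epN_sum, e]
  refine Finset.sum_congr rfl fun i _ => ?_
  rw [← ctr_epN, show epN N a b (w i) = 0 from funext (hw i b), right_eq_add, ctr]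
  split_ifs <;> simp

/-- **Every finitely generated module is regular in large degrees.** -/
theorem exists_reg {N : GrS ν} (hN : fg N) : ∃ m, Reg m N := by
  obtain ⟨n, hn⟩ := gen_large (fg_piG fun _ : Finset (Fin ν) => hN) (stb_Zk N) 1
  refine ⟨n, reg_of_gen fun a b hab hb z hz => ?_⟩
  obtain ⟨w, hw, e⟩ := hn a b (by simpa using hab) hb z hz
  refine ⟨w, hw, fun J => ?_⟩
  have h1 := congrArg ((piP (fun _ : Finset (Fin ν) => N) J).app ⟨b⟩) e
  rw [map_sum] at h1
  refine h1.trans (Finset.sum_congr rfl fun i _ => ?_)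
  rw [act_natural_apply, pow_one]
  rfl

namespace Reg

variable {m m' : ℤ} {N : GrS ν}

theorem mono (h : Reg m N) (hm : m ≤ m') : Reg m' N := fun a b hab hb => h a b hab (hm.trans hb)

theorem epN_tw (N : GrS ν) (r a b : ℤ) (f : Finset (Fin ν) → N.obj ⟨a + r⟩) (J : Finset (Fin ν)) :
    epN ((twS r).obj N) a b f J = epN N (a + r) (b + r) f J :=
  Finset.sum_congr rfl fun i _ => by rw [act_tw]; rfl

theorem tw (h : Reg m N) (r : ℤ) : Reg (m - r) ((twS r).obj N) := fun a b hab hb f hf => by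
  obtain ⟨g, hg⟩ := h (a + r) (b + r) (by lia) (by lia) f fun c J => by
    obtain ⟨c, rfl⟩ : ∃ c', c = c' + r := ⟨c - r, by lia⟩
    exact (epN_tw N r b c f J).symm.trans (hf c J)
  exact ⟨g, fun J => (epN_tw N r a b g J).trans (hg J)⟩

/-- finite sums, retracts -/
theorem of_pieces {T : Type*} [Fintype T] {M : T → GrS ν} (p : ∀ t, N ⟶ M t) (i : ∀ t, M t ⟶ N)
    (e : ∑ t, p t ≫ i t = 𝟙 N) (h : ∀ t, Reg m (M t)) : Reg m N := fun a b hab hb f hf => by
  choose g hg using fun t => h t a b hab hb (fun I => (p t).app ⟨b⟩ (f I)) fun c J => by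
    rw [epN_nat, hf, map_zero]
  refine ⟨fun I => ∑ t, (i t).app ⟨a⟩ (g t I), fun J => ?_⟩
  rw [epN_sum]
  have h1 : (∑ t, p t ≫ i t).app ⟨b⟩ (f J) = f J := by rw [e]; rfl
  rw [← h1, NatTrans.app_sum]
  change _ = (ModuleCat.Hom.hom _) _
  rw [ModuleCat.hom_sum, LinearMap.sum_apply]
  exact Finset.sum_congr rfl fun t _ => by rw [epN_nat, hg]; rfl

theorem retract {M : GrS ν} (h : Reg m M) (p : N ⟶ M) (i : M ⟶ N) (e : p ≫ i = 𝟙 N) : Reg m N :=
  of_pieces (T := Unit) (fun _ => p) (fun _ => i) (by simpa using e) fun _ => h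

theorem iso {M : GrS ν} (h : Reg m M) (e : N ≅ M) : Reg m N := h.retract e.hom e.inv e.hom_inv_id

/-- no torsion -/
theorem tf (h : Reg m N) {b : ℤ} (hb : m ≤ b) (v : N.obj ⟨b⟩)
    (hv : ∀ i, act N (X i) b (b + 1) v = 0) : v = 0 := by
  obtain ⟨g, hg⟩ := h (b - 1) b (by lia) hb (fun I => if I = ∅ then v else 0) fun c J => by
    refine Finset.sum_eq_zero fun i _ => ?_
    dsimp only
    split_ifs
    · by_cases hc : c = b + 1
      · subst hc; rw [hv, smul_zero]
      · rw [act_eq_zero_of_hg N (hga_X i) (by lia)]; simp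
    · simp
  have := hg ∅
  rw [if_pos rfl, epN, Finset.sum_empty] at this
  exact this.symm

/-- exactness with supports -/
theorem supp (h : Reg m N) {a b : ℤ} (hab : a + 1 = b) (hb : m ≤ b) (j : ℕ)
    (f : Finset (Fin ν) → N.obj ⟨b⟩) (hf : ∀ c J, epN N b c f J = 0)
    (hs : ∀ I, I.card ≠ j + 1 → f I = 0) : ∃ g : Finset (Fin ν) → N.obj ⟨a⟩,
      (∀ I, I.card ≠ j → g I = 0) ∧ ∀ J, epN N a b g J = f J := by
  obtain ⟨g, hg⟩ := h a b hab hb f hf
  refine ⟨fun I => if I.card = j then g I else 0, fun I hI => if_neg hI, fun J => ?_⟩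
  by_cases hJ : J.card = j + 1
  · rw [← hg J]
    refine Finset.sum_congr rfl fun i hi => ?_
    dsimp only
    rw [if_pos (by rw [Finset.card_erase_of_mem hi]; lia)]
  · rw [hs J hJ]
    refine Finset.sum_eq_zero fun i hi => ?_
    dsimp only
    rw [if_neg (by rw [Finset.card_erase_of_mem hi]; have := Finset.card_pos.2 ⟨i, hi⟩; lia)]
    simp

/-- depth two -/
theorem dp (h : Reg m N) {a b : ℤ} (hab : a + 1 = b) (hb : m ≤ b) (y : Fin ν → N.obj ⟨b⟩)
    (hy : ∀ i k, act N (X i) b (b + 1) (y k) = act N (X k) b (b + 1) (y i)) :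
    ∃ z : N.obj ⟨a⟩, ∀ i, act N (X i) a b z = y i := by
  let V := N.obj ⟨b⟩
  let e : Finset (Fin ν) → V := fun I => ∑ i, if I = {i} then y i else 0
  have e1 : ∀ i, e {i} = y i := fun i => by
    simp only [e, Finset.singleton_inj]
    rw [Finset.sum_ite_eq, if_pos (Finset.mem_univ _)]
  have e0 : ∀ I, I.card ≠ 0 + 1 → e I = 0 := fun I hI =>
    Finset.sum_eq_zero fun i _ => if_neg (by rintro rfl; simp at hI)
  obtain ⟨g, -, hg⟩ := h.supp hab hb 0 e (fun c J => by
    by_cases hc : c = b + 1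
    swap
    · refine Finset.sum_eq_zero fun i _ => ?_
      rw [act_eq_zero_of_hg N (hga_X i) (by lia)]; simp
    subst hc
    by_cases hJ : J.card = 2
    · obtain ⟨i, k, hik, rfl⟩ := Finset.card_eq_two.1 hJ
      rw [epN, Finset.sum_pair hik, Finset.erase_insert (by simpa using hik),
        Finset.pair_comm i k, Finset.erase_insert (by simpa using hik.symm), e1, e1, hy i k,
        ← add_smul]
      have : sg i {k, i} + sg k {k, i} = 0 := by
        rw [sg_insert_self, sg_insert (by simpa using hik.symm)]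
        rcases lt_or_gt_of_ne hik with h | h
        · simp [sg, Finset.filter_singleton, h, h.not_gt]
        · simp [sg, Finset.filter_singleton, h, h.not_gt]
      rw [this, zero_smul]
    · refine Finset.sum_eq_zero fun i hi => ?_
      rw [e0 _ (by rw [Finset.card_erase_of_mem hi]; have := Finset.card_pos.2 ⟨i, hi⟩; lia)]
      simp) e0
  refine ⟨g ∅, fun i => ?_⟩
  have := hg {i}
  rw [e1, epN, Finset.sum_singleton, Finset.erase_singleton] at this
  simpa [sg, Finset.filter_singleton] using this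

end Reg

end Vale.Agent.P287T.Sv
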